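import Crest.Agent.TwoWay.Double
import Crest.Prelude.Def_TwoWay

/-!
Behaviours of two-way automata.
-/

set_option autoImplicit false
set_option linter.unusedVariables false

open Computability

namespace Crest.Agent.TW

open Beh Crest.TwoWay

variable {α σ : Type*} (M : TwoWayNFA α σ)

def St (c : Cell α) : σ → σ → Prop := fun q q' => q ∉ M.accept ∧ (q', HeadMove.stay) ∈ M.step q c

def cA (c : Cell α) : Rl (Option σ) := fun p p' => (p = none ∧ p' = none) ∨
  ∃ q q1, p = some q ∧ Relation.ReflTransGen (St M c) q q1 ∧ ((q1 ∈ M.accept ∧ p' = none) ∨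
    (q1 ∉ M.accept ∧ ∃ q', p' = some q' ∧ (q', HeadMove.moveRight) ∈ M.step q1 c))

def cB (c : Cell α) : Rl (Option σ) := fun p p' =>
  ∃ q q1 q', p = some q ∧ p' = some q' ∧ Relation.ReflTransGen (St M c) q q1 ∧ q1 ∉ M.accept ∧
    (q', HeadMove.moveLeft) ∈ M.step q1 c

def cell (c : Cell α) : Beh (Rl (Option σ)) := ⟨cA M c, cB M c, cB M c, cA M c⟩

def seg (L : List (Cell α)) : Beh (Rl (Option σ)) := (L.map (cell M)).prod

theorem seg_nil : seg M [] = 1 := rfl
theorem seg_cons (c : Cell α) (L : List (Cell α)) : seg M (c :: L) = cell M c * seg M L := by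
  simp [seg]
theorem seg_append (L L' : List (Cell α)) : seg M (L ++ L') = seg M L * seg M L' := by
  simp [seg]

def tape (w : List α) : List (Cell α) := Cell.leftEnd :: (w.map Cell.letter ++ [Cell.rightEnd])

theorem tape_length (w : List α) : (tape w).length = w.length + 2 := by simp [tape]

theorem tape_get (w : List α) (i : ℕ) (h : i < (tape w).length) : (tape w)[i] = scan w i := by
  cases i with
  | zero => simp [tape, scan]
  | succ i =>
    simp only [tape, List.getElem_cons_succ, scan, Nat.add_one_ne_zero, if_false,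
      Nat.add_sub_cancel]
    by_cases hi : i < w.length
    · rw [List.getElem_append_left (by simpa using hi), List.getElem?_eq_getElem hi]; simp
    · rw [List.getElem_append_right (by simpa using hi), List.getElem?_eq_none (by omega)]; simp

theorem seg_none (L : List (Cell α)) : (seg M L).a none none := by
  induction L with
  | nil => rfl
  | cons c L ih =>
    rw [seg_cons]
    exact ⟨none, Or.inl ⟨rfl, rfl⟩, none, Relation.ReflTransGen.refl, ih⟩

def Win (w : List α) (c : σ × ℕ) : Prop :=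
  (((seg M ((tape w).drop c.2)).b * (seg M ((tape w).take c.2)).d)∗ *
    (seg M ((tape w).drop c.2)).a) (some c.1) none

theorem win_head {K : Type*} [KleeneAlgebra K] (x y z : Beh K) (s : K) (h1 : s * y.a ≤ y.a)
    (h2 : s * y.b ≤ y.b) :
    s * (((y * z).b * x.d)∗ * (y * z).a) ≤ ((y * z).b * x.d)∗ * (y * z).a := by
  have a1 : s * (y * z).a ≤ (y * z).a := by
    rw [mul_a, ← mul_assoc]; gcongr
  have a2 : s * (y * z).b ≤ (y * z).b := by
    rw [mul_b, mul_add, ← mul_assoc s y.a]; gcongr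
  rw [kstar_unfold, mul_add]
  simp only [← mul_assoc]
  gcongr

theorem win_left {K : Type*} [KleeneAlgebra K] (x y z : Beh K) (h1 : y.a = y.d) (h2 : y.b = y.c) :
    z.b * (((y * z).b * x.d)∗ * (y * z).a) ≤ (z.b * (x * y).d)∗ * z.a := by
  have e : (y.b * x.d)∗ * y.a = (x * y).d := by
    rw [mul_d, ← h1, ← h2, kstar_unfold, ← slide', mul_assoc]
  rw [← pre_assoc, ← mul_assoc (_∗) y.a, e, ← mul_assoc, ← mul_assoc]
  gcongr
  exact mul_kstar_le_kstar

theorem drop_eq (w : List α) {i : ℕ} (h : i ≤ w.length + 1) :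
    seg M ((tape w).drop i) = cell M (scan w i) * seg M ((tape w).drop (i + 1)) := by
  have h' : i < (tape w).length := by rw [tape_length]; omega
  rw [List.drop_eq_getElem_cons h', seg_cons, tape_get]

theorem take_eq (w : List α) {i : ℕ} (h : i ≤ w.length + 1) :
    seg M ((tape w).take (i + 1)) = seg M ((tape w).take i) * cell M (scan w i) := by
  have h' : i < (tape w).length := by rw [tape_length]; omega
  rw [List.take_succ_eq_append_getElem h', seg_append, tape_get, seg_cons, seg_nil, mul_one]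

theorem win_accept (w : List α) (q : σ) (i : ℕ) (h : i ≤ w.length + 1) (hq : q ∈ M.accept) :
    Win M w (q, i) := by
  unfold Win
  refine (Rl.le_def _ _).1 (le_kstar_mul _ _) _ _ ?_
  rw [drop_eq M w h]
  exact ⟨none, Or.inr ⟨q, q, rfl, Relation.ReflTransGen.refl, Or.inl ⟨hq, rfl⟩⟩, none,
    Relation.ReflTransGen.refl, seg_none M _⟩

theorem win_step (w : List α) (c d : σ × ℕ) (h : c.2 ≤ w.length + 1) (hs : M.Step w c d)
    (hd : Win M w d) : Win M w c := by
  obtain ⟨q, i⟩ := c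
  obtain ⟨q', j⟩ := d
  by_cases hq : q ∈ M.accept
  · exact win_accept M w q i h hq
  obtain ⟨m, hm, hpos⟩ := hs
  simp only at hm hpos h
  unfold Win at hd ⊢
  simp only at hd ⊢
  cases m with
  | stay =>
    simp only [movePos, Option.some.injEq] at hpos
    subst hpos
    rw [drop_eq M w h] at hd ⊢
    refine (Rl.le_def _ _).1 (win_head (K := Rl (Option σ)) _ _ _
      (fun p p' => p = some q ∧ p' = some q') ?_ ?_) _ _ ⟨some q', ⟨rfl, rfl⟩, hd⟩
    · rintro _ p ⟨_, ⟨rfl, rfl⟩, ⟨h1, -⟩ | ⟨q0, q1, h1, h2, h3⟩⟩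
      · cases h1
      · cases h1
        exact Or.inr ⟨q, q1, rfl, Relation.ReflTransGen.head ⟨hq, hm⟩ h2, h3⟩
    · rintro _ p ⟨_, ⟨rfl, rfl⟩, ⟨q0, q1, q2, h1, h2, h3, h4⟩⟩
      cases h1
      exact ⟨q, q1, q2, rfl, h2, Relation.ReflTransGen.head ⟨hq, hm⟩ h3, h4⟩
  | moveRight =>
    simp only [movePos] at hpos
    split_ifs at hpos with hi
    simp only [Option.some.injEq] at hpos
    subst hpos
    rw [take_eq M w h] at hd
    rw [drop_eq M w h, ← pre_assoc]
    refine (Rl.le_def _ _).1 (le_kstar_mul _ _) _ _ ⟨some q', ?_, hd⟩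
    exact Or.inr ⟨q, q, rfl, Relation.ReflTransGen.refl, Or.inr ⟨hq, q', rfl, hm⟩⟩
  | moveLeft =>
    simp only [movePos] at hpos
    split_ifs at hpos with hi
    simp only [Option.some.injEq] at hpos
    obtain rfl : i = j + 1 := by omega
    rw [drop_eq M w (by omega : j ≤ w.length + 1)] at hd
    rw [take_eq M w (by omega : j ≤ w.length + 1)]
    refine (Rl.le_def _ _).1 (win_left (seg M ((tape w).take j)) (cell M (scan w j))
      (seg M ((tape w).drop (j + 1))) rfl rfl) _ _ ⟨some q', ?_, hd⟩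
    rw [drop_eq M w h]
    exact (Rl.le_def _ _).1 (b_le_mul _ _) _ _
      ⟨q, q, q', rfl, rfl, Relation.ReflTransGen.refl, hq, hm⟩

theorem step_le (w : List α) (c d : σ × ℕ) (h : c.2 ≤ w.length + 1) (hs : M.Step w c d) :
    d.2 ≤ w.length + 1 := by
  obtain ⟨m, -, hpos⟩ := hs
  cases m <;> simp only [movePos] at hpos
  · split_ifs at hpos; simp only [Option.some.injEq] at hpos; omega
  · simp only [Option.some.injEq] at hpos; omega
  · split_ifs at hpos; simp only [Option.some.injEq] at hpos; omega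

theorem complete (w : List α) (h : M.Accepts w) : (seg M (tape w)).a (some M.start) none := by
  obtain ⟨c, hc, hacc⟩ := h
  have : ∀ c0, Relation.ReflTransGen (M.Step w) c0 c → c0.2 ≤ w.length + 1 → Win M w c0 := by
    intro c0 h0
    induction h0 using Relation.ReflTransGen.head_induction_on with
    | refl => exact fun h => win_accept M w c.1 c.2 h hacc
    | head hs _ ih => exact fun h => win_step M w _ _ h hs (ih (step_le M w _ _ h hs))
  have h1 := this _ hc (by simp)
  simpa [Win, seg_nil] using h1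

def GG (w : List α) (p : Option σ) (i : ℤ) : Prop := p = none ∨ ∃ q, p = some q ∧ ∃ n : ℕ,
  (n : ℤ) = i ∧ n ≤ w.length + 1 ∧ ∃ c, Relation.ReflTransGen (M.Step w) (q, n) c ∧ c.1 ∈ M.accept

def Snd {P : Type*} (G : P → ℤ → Prop) (y : Beh (Rl P)) (k l : ℤ) : Prop :=
  (∀ p p', y.a p p' → G p' l → G p k) ∧ (∀ p p', y.b p p' → G p' (k - 1) → G p k) ∧
    (∀ p p', y.c p p' → G p' (k - 1) → G p (l - 1)) ∧ (∀ p p', y.d p p' → G p' l → G p (l - 1))

theorem star_back {P : Type*} {r : Rl P} {G : P → Prop} (h : ∀ p p', r p p' → G p' → G p)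
    {p p' : P} (hp : r∗ p p') (hG : G p') : G p := by
  induction hp using Relation.ReflTransGen.head_induction_on with
  | refl => exact hG
  | head h1 _ ih => exact h _ _ h1 ih

theorem Snd.mul {P : Type*} {G : P → ℤ → Prop} {x y : Beh (Rl P)} {k m l : ℤ}
    (hx : Snd G x k m) (hy : Snd G y m l) : Snd G (x * y) k l := by
  obtain ⟨a1, b1, c1, d1⟩ := hx
  obtain ⟨a2, b2, c2, d2⟩ := hy
  have s1 : ∀ p p', (y.b * x.d)∗ p p' → G p' m → G p m := fun p p' h =>
    star_back (G := fun p => G p m) (fun p p' ⟨n, h1, h2⟩ h3 => b2 _ _ h1 (d1 _ _ h2 h3)) h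
  have s2 : ∀ p p', (x.d * y.b)∗ p p' → G p' (m - 1) → G p (m - 1) := fun p p' h =>
    star_back (G := fun p => G p (m - 1)) (fun p p' ⟨n, h1, h2⟩ h3 => d1 _ _ h1 (b2 _ _ h2 h3)) h
  refine ⟨?_, ?_, ?_, ?_⟩
  · rintro p p' ⟨u, h1, v, h2, h3⟩ h
    exact a1 _ _ h1 (s1 _ _ h2 (a2 _ _ h3 h))
  · rintro p p' (h1 | ⟨u, h1, v, h2, z, h3, h4⟩) h
    · exact b1 _ _ h1 h
    · exact a1 _ _ h1 (s1 _ _ h2 (b2 _ _ h3 (c1 _ _ h4 h)))
  · rintro p p' ⟨u, h1, v, h2, h3⟩ h
    exact c2 _ _ h1 (s2 _ _ h2 (c1 _ _ h3 h))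
  · rintro p p' (h1 | ⟨u, h1, v, h2, z, h3, h4⟩) h
    · exact d2 _ _ h1 h
    · exact c2 _ _ h1 (s2 _ _ h2 (d1 _ _ h3 (a2 _ _ h4 h)))

theorem stay_run (w : List α) (k : ℕ) {q q1 : σ}
    (h : Relation.ReflTransGen (St M (scan w k)) q q1) :
    Relation.ReflTransGen (M.Step w) (q, k) (q1, k) := by
  induction h with
  | refl => exact Relation.ReflTransGen.refl
  | tail _ h2 ih => exact ih.tail ⟨HeadMove.stay, h2.2, rfl⟩

theorem snd_cell (w : List α) (k : ℕ) (hk : k ≤ w.length + 1) :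
    Snd (GG M w) (cell M (scan w k)) k (k + 1) := by
  have hA : ∀ p p', cA M (scan w k) p p' → GG M w p' (k + 1) → GG M w p k := by
    rintro p p' (⟨rfl, -⟩ | ⟨q, q1, rfl, h1, ⟨h2, -⟩ | ⟨h2, q', rfl, h3⟩⟩) h
    · exact Or.inl rfl
    · exact Or.inr ⟨q, rfl, k, rfl, hk, _, stay_run M w k h1, h2⟩
    · rcases h with h | ⟨q2, h4, n, hn, hn', c, hc, hacc⟩
      · cases h
      · cases h4
        obtain rfl : n = k + 1 := by omega
        refine Or.inr ⟨q, rfl, k, rfl, hk, c, ((stay_run M w k h1).tail ?_).trans hc, hacc⟩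
        exact ⟨HeadMove.moveRight, h3, by simp [movePos]; omega⟩
  have hB : ∀ p p', cB M (scan w k) p p' → GG M w p' (k - 1) → GG M w p k := by
    rintro p p' ⟨q, q1, q', rfl, rfl, h1, h2, h3⟩ h
    rcases h with h | ⟨q2, h4, n, hn, hn', c, hc, hacc⟩
    · cases h
    · cases h4
      obtain rfl : k = n + 1 := by omega
      refine Or.inr ⟨q, rfl, n + 1, rfl, hk, c, ((stay_run M w _ h1).tail ?_).trans hc, hacc⟩
      exact ⟨HeadMove.moveLeft, h3, by simp [movePos]⟩
  refine ⟨hA, hB, ?_, ?_⟩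
  · rw [add_sub_cancel_right]; exact hB
  · rw [add_sub_cancel_right]; exact hA

theorem snd_take (w : List α) (n : ℕ) (hn : n ≤ w.length + 2) :
    Snd (GG M w) (seg M ((tape w).take n)) 0 n := by
  induction n with
  | zero =>
    refine ⟨?_, ?_, ?_, ?_⟩
    · rintro p _ rfl h; exact h
    · rintro p _ ⟨⟩
    · rintro p _ rfl h; exact h
    · rintro p _ ⟨⟩
  | succ n ih =>
    rw [take_eq M w (by omega)]
    exact (ih (by omega)).mul (by simpa using snd_cell M w n (by omega))

theorem sound (w : List α) (h : (seg M (tape w)).a (some M.start) none) : M.Accepts w := by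
  have := snd_take M w (w.length + 2) le_rfl
  rw [List.take_of_length_le (tape_length w).le] at this
  rcases this.1 _ _ h (Or.inl rfl) with h | ⟨q, h4, n, hn, -, c, hc, hacc⟩
  · cases h
  · cases h4
    obtain rfl : n = 0 := by omega
    exact ⟨c, hc, hacc⟩

/-- behaviour of a word -/
def beh (w : List α) : Beh (Rl (Option σ)) := seg M (w.map Cell.letter)

theorem beh_append (w w' : List α) : beh M (w ++ w') = beh M w * beh M w' := by
  simp [beh, seg_append]

theorem accepts_mono (u v : List α) {w w' : List α} (h : beh M w ≤ beh M w')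
    (hw : M.Accepts (u ++ w ++ v)) : M.Accepts (u ++ w' ++ v) := by
  apply sound
  have h1 := complete M _ hw
  have e : ∀ w, seg M (tape (u ++ w ++ v)) =
      cell M Cell.leftEnd * (beh M u * beh M w * beh M v * seg M [Cell.rightEnd]) := fun w => by
    rw [tape, seg_cons, seg_append, ← beh_append, ← beh_append]; rfl
  rw [e] at h1 ⊢
  exact (mul_mono (le_rfl' _) (mul_mono (mul_mono (mul_mono (le_rfl' _) h) (le_rfl' _))
    (le_rfl' _))).1 _ _ h1

/-! determinism -/

def ab {P : Type*} (y : Beh (Rl P)) (p : P) : P ⊕ P → Prop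
  | Sum.inl q => y.a p q
  | Sum.inr q => y.b p q

def Fn {P X : Type*} (r : P → X → Prop) : Prop := ∀ p x x', r p x → r p x' → x = x'

def Func {P : Type*} (y : Beh (Rl P)) : Prop := Fn (ab y) ∧ Fn (ab y.mir)

theorem star_fn {P X : Type*} {r : P → P → Prop} {out : P → X → Prop} (hr : Fn r) (ho : Fn out)
    (hex : ∀ m x m', out m x → ¬ r m m') {p m m' : P} {x x' : X}
    (h1 : Relation.ReflTransGen r p m) (h2 : out m x) (h3 : Relation.ReflTransGen r p m')
    (h4 : out m' x') : x = x' := by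
  induction h1 using Relation.ReflTransGen.head_induction_on generalizing m' with
  | refl =>
    rcases h3.cases_head with rfl | ⟨n, h5, -⟩
    · exact ho _ _ _ h2 h4
    · exact absurd h5 (hex _ _ _ h2)
  | head h5 _ ih =>
    rcases h3.cases_head with rfl | ⟨n, h6, h7⟩
    · exact absurd h5 (hex _ _ _ h4)
    · cases hr _ _ _ h5 h6
      exact ih h7 h4

theorem fn_mul {P : Type*} {x y : Beh (Rl P)} (h1 : Fn (ab x)) (h2 : Fn (ab x.mir))
    (h3 : Fn (ab y)) : Fn (ab (x * y)) := by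
  let out : P → P ⊕ P → Prop := fun m o => match o with
    | Sum.inl q => y.a m q
    | Sum.inr q => (y.b * x.c) m q
  have hr : Fn (y.b * x.d) := by
    rintro p q q' ⟨m, a, b⟩ ⟨m', a', b'⟩
    cases h3 p (Sum.inr m) (Sum.inr m') a a'
    exact Sum.inr.inj (h2 m (Sum.inr q) (Sum.inr q') b b')
  have ho : Fn out := by
    rintro p (q | q) (q' | q') a b
    · exact h3 p (Sum.inl q) (Sum.inl q') a b
    · obtain ⟨m, b, -⟩ := b
      cases h3 p (Sum.inl q) (Sum.inr m) a b
    · obtain ⟨m, a, -⟩ := a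
      cases h3 p (Sum.inr m) (Sum.inl q') a b
    · obtain ⟨m, a, a'⟩ := a
      obtain ⟨m', b, b'⟩ := b
      cases h3 p (Sum.inr m) (Sum.inr m') a b
      cases h2 m (Sum.inl q) (Sum.inl q') a' b'
      rfl
  have hex : ∀ m o m', out m o → ¬ (y.b * x.d) m m' := by
    rintro p (q | q) m' a ⟨m, b, b'⟩
    · cases h3 p (Sum.inl q) (Sum.inr m) a b
    · obtain ⟨n, a, a'⟩ := a
      cases h3 p (Sum.inr n) (Sum.inr m) a b
      cases h2 m (Sum.inl q) (Sum.inr m') a' b'
  have key : ∀ p o, ab (x * y) p o → (∃ q, o = Sum.inr q ∧ x.b p q) ∨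
      ∃ u m, x.a p u ∧ Relation.ReflTransGen (y.b * x.d) u m ∧ out m o := by
    rintro p (q | q) h
    · obtain ⟨u, a, m, b, c⟩ := h
      exact Or.inr ⟨u, m, a, b, c⟩
    · rcases h with h | ⟨u, a, m, b, c⟩
      · exact Or.inl ⟨q, rfl, h⟩
      · exact Or.inr ⟨u, m, a, b, c⟩
  intro p o o' a b
  rcases key p o a with ⟨q, rfl, a0⟩ | ⟨u, m, a1, a2, a3⟩ <;>
    rcases key p o' b with ⟨q', rfl, b0⟩ | ⟨u', m', b1, b2, b3⟩
  · exact h1 p (Sum.inr q) (Sum.inr q') a0 b0
  · cases h1 p (Sum.inr q) (Sum.inl u') a0 b1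
  · cases h1 p (Sum.inl u) (Sum.inr q') a1 b0
  · cases h1 p (Sum.inl u) (Sum.inl u') a1 b1
    exact star_fn hr ho hex a2 a3 b2 b3

theorem Func.mul {P : Type*} {x y : Beh (Rl P)} (hx : Func x) (hy : Func y) : Func (x * y) :=
  ⟨fn_mul hx.1 hx.2 hy.1, fn_mul (x := y.mir) (y := x.mir) hy.2 hy.1 hx.2⟩

theorem func_one {P : Type*} : Func (1 : Beh (Rl P)) := by
  have : Fn (ab (1 : Beh (Rl P))) := by
    rintro p (q | q) (q' | q') a b
    · cases a; cases b; rfl
    · cases b
    · cases a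
    · cases a
  exact ⟨this, this⟩

theorem func_cell (hM : M.IsDeterministic) (c : Cell α) : Func (cell M c) := by
  let out : σ → Option σ ⊕ Option σ → Prop := fun q1 o => (q1 ∈ M.accept ∧ o = Sum.inl none) ∨
    (q1 ∉ M.accept ∧ ∃ q', (o = Sum.inl (some q') ∧ (q', HeadMove.moveRight) ∈ M.step q1 c) ∨
      (o = Sum.inr (some q') ∧ (q', HeadMove.moveLeft) ∈ M.step q1 c))
  have hr : Fn (St M c) := fun p q q' a b => congrArg Prod.fst (hM p c a.2 b.2)
  have ho : Fn out := by
    rintro p o o' (⟨a, rfl⟩ | ⟨a, q, ⟨rfl, a'⟩ | ⟨rfl, a'⟩⟩)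
      (⟨b, rfl⟩ | ⟨b, q', ⟨rfl, b'⟩ | ⟨rfl, b'⟩⟩)
    all_goals first
      | rfl
      | exact absurd a b
      | exact absurd b a
      | (cases hM p c a' b' <;> rfl)
  have hex : ∀ m o m', out m o → ¬ St M c m m' := by
    rintro p o m' (⟨a, rfl⟩ | ⟨a, q, ⟨rfl, a'⟩ | ⟨rfl, a'⟩⟩) ⟨b, b'⟩
    · exact b a
    · cases hM p c a' b'
    · cases hM p c a' b'
  have key : ∀ p o, ab (cell M c) p o → (p = none ∧ o = Sum.inl none) ∨
      ∃ q q1, p = some q ∧ Relation.ReflTransGen (St M c) q q1 ∧ out q1 o := by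
    rintro p (q | q) h
    · rcases h with ⟨rfl, rfl⟩ | ⟨q0, q1, rfl, h1, ⟨h2, rfl⟩ | ⟨h2, q', rfl, h3⟩⟩
      · exact Or.inl ⟨rfl, rfl⟩
      · exact Or.inr ⟨q0, q1, rfl, h1, Or.inl ⟨h2, rfl⟩⟩
      · exact Or.inr ⟨q0, q1, rfl, h1, Or.inr ⟨h2, q', Or.inl ⟨rfl, h3⟩⟩⟩
    · obtain ⟨q0, q1, q', rfl, rfl, h1, h2, h3⟩ := h
      exact Or.inr ⟨q0, q1, rfl, h1, Or.inr ⟨h2, q', Or.inr ⟨rfl, h3⟩⟩⟩
  have : Fn (ab (cell M c)) := by
    intro p o o' a b
    rcases key p o a with ⟨rfl, rfl⟩ | ⟨q, q1, rfl, a1, a2⟩ <;>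
      rcases key _ o' b with ⟨h, rfl⟩ | ⟨q', q1', h, b1, b2⟩
    · rfl
    · cases h
    · cases h
    · cases h
      exact star_fn hr ho hex a1 a2 b1 b2
  refine ⟨this, fun p o o' a b => ?_⟩
  have h := this p o.swap o'.swap (by cases o <;> exact a) (by cases o' <;> exact b)
  simpa using congrArg Sum.swap h

theorem func_seg (hM : M.IsDeterministic) (L : List (Cell α)) : Func (seg M L) := by
  induction L with
  | nil => exact func_one
  | cons c L ih => rw [seg_cons]; exact (func_cell M hM c).mul ih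

theorem ab_le {P : Type*} {e x : Beh (Rl P)} (hx : Fn (ab x)) (h1 : e * x = x) (h : e ≤ x) :
    x.a ≤ e.a ∧ x.b ≤ e.b := by
  constructor
  · intro p q hq
    have hq' := hq
    rw [← h1] at hq'
    obtain ⟨u, hu, -⟩ := hq'
    cases hx p (Sum.inl u) (Sum.inl q) (h.1 _ _ hu) hq
    exact hu
  · intro p q hq
    have hq' := hq
    rw [← h1] at hq'
    rcases hq' with hq' | ⟨u, hu, -⟩
    · exact hq'
    · cases hx p (Sum.inl u) (Sum.inr q) (h.1 _ _ hu) hq

theorem le_of_func {P : Type*} {e x : Beh (Rl P)} (hx : Func x) (h1 : e * x = x) (h2 : x * e = x)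
    (h : e ≤ x) : x ≤ e := by
  have a := ab_le hx.1 h1 h
  have b := ab_le (e := e.mir) (x := x.mir) hx.2 (by rw [← mir_mul, h2]) ⟨h.2.2.1, h.2.2.2, h.1, h.2.1⟩
  exact ⟨a.1, a.2, b.1, b.2⟩

/-! liveness -/

theorem wordRel_append {h : ℕ} (w w' : List (Fin h → Fin h → Bool)) (a c : Fin h) :
    wordRel (w ++ w') a c ↔ ∃ b, wordRel w a b ∧ wordRel w' b c := by
  induction w generalizing a with
  | nil => simp [wordRel]
  | cons R w ih =>
    simp only [List.cons_append, wordRel, ih]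
    exact ⟨fun ⟨b, h1, d, h2, h3⟩ => ⟨d, ⟨b, h1, h2⟩, h3⟩, fun ⟨d, ⟨b, h1, h2⟩, h3⟩ => ⟨b, h1, d, h2, h3⟩⟩

theorem live_iff {h : ℕ} (w : List (Fin h → Fin h → Bool)) (u v : Fin h) :
    [fun a b => decide (a = u ∧ b = u)] ++ w ++ [fun a b => decide (a = v ∧ b = v)] ∈ liveness h ↔
      wordRel w u v := by
  change (∃ a b, wordRel _ a b) ↔ _
  simp [wordRel_append, wordRel]

theorem lower_bound {h : ℕ} (hh : 2 ≤ h) {σ : Type*} [Fintype σ]
    (M : TwoWayNFA (Fin h → Fin h → Bool) σ)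
    (hM : ∀ w w', beh M w * beh M w' = beh M w' → beh M w' * beh M w = beh M w' →
      beh M w ≤ beh M w' → ∀ u v, wordRel w' u v → wordRel w u v) :
    2 ^ ((h - 2) / 31) ≤ 2 * (Fintype.card σ + 1) := by
  classical
  let T : Submonoid (Beh (Rl (Option σ)) × Rl (Fin h)) :=
    { carrier := {z | ∃ w, z = (beh M w, wordRel w)}
      one_mem' := ⟨[], rfl⟩
      mul_mem' := by
        rintro _ _ ⟨w, rfl⟩ ⟨w', rfl⟩
        refine ⟨w ++ w', Prod.ext (beh_append M w w').symm ?_⟩
        ext u v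
        exact (wordRel_append w w' u v).symm }
  have hletter : ∀ R : Rl (Fin h), ∃ m, (m, R) ∈ T := fun R =>
    ⟨_, [fun a b => decide (R a b)], Prod.ext rfl (by ext u v; simp [wordRel])⟩
  have hT : Ctx T := ⟨hletter, by
    rintro _ ⟨w, rfl⟩ _ ⟨w', rfl⟩ - h1 h2 h3
    exact hM w w' h1 h2 h3⟩
  obtain ⟨m, hm⟩ := hletter (edge ⟨0, by omega⟩ ⟨1, by omega⟩)
  have := main_bound ((h - 2) / 31) (Fin h) (by simp; omega) T hT 1 (one_mem _) _ hm (mul_one _)
    (one_mul _) (mul_one _) rfl _ _ (by simp) rfl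
  refine this.trans ((del_le _ _).trans (le_of_eq ?_))
  simp

/-- the one-way guessing machine -/
def guess {h : ℕ} {σ : Type*} (s0 acc : σ) (node : Fin h → σ) :
    TwoWayNFA (Fin h → Fin h → Bool) σ where
  start := s0
  accept := {acc}
  step q c := match c with
    | Cell.leftEnd => {z | ∃ a, z = (node a, HeadMove.moveRight)}
    | Cell.letter R => {z | ∃ a b, q = node a ∧ R a b = true ∧ z = (node b, HeadMove.moveRight)}
    | Cell.rightEnd => {(acc, HeadMove.stay)}

theorem guess_noLeft {h : ℕ} {σ : Type*} (s0 acc : σ) (node : Fin h → σ) :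
    (guess s0 acc node).NoLeftMoves := by
  rintro q (_ | R | _) p hp
  · obtain ⟨a, rfl⟩ := hp; simp
  · obtain ⟨a, b, -, -, rfl⟩ := hp; simp
  · cases hp; simp

theorem guess_lang {h : ℕ} {σ : Type*} (s0 acc : σ) (node : Fin h → σ)
    (hinj : Function.Injective node) (h1 : s0 ≠ acc) (h2 : ∀ a, node a ≠ acc) :
    (guess s0 acc node).language = liveness h := by
  ext w
  constructor
  · rintro ⟨c, hc, hacc⟩
    have inv : c = (s0, 0) ∨ (∃ a b k, k ≤ w.length ∧ c = (node b, k + 1) ∧ wordRel (w.take k) a b) ∨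
        w ∈ liveness h := by
      clear hacc
      induction hc with
      | refl => exact Or.inl rfl
      | tail _ hs ih =>
        rename_i c d _
        obtain ⟨m, hm, hpos⟩ := hs
        rcases ih with rfl | ⟨a, b, k, hk, rfl, hw⟩ | ih
        · obtain ⟨a, ha⟩ := hm
          cases ha' : d
          rw [ha'] at ha hpos
          cases ha
          simp only [movePos] at hpos
          split_ifs at hpos
          cases hpos
          exact Or.inr (Or.inl ⟨a, a, 0, by omega, rfl, rfl⟩)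
        · rcases hk.lt_or_eq with hk | rfl
          · have hsc : scan w (k + 1) = Cell.letter w[k] := by
              simp [scan, List.getElem?_eq_getElem hk]
            simp only [hsc] at hm
            obtain ⟨a', b', e1, e2, e3⟩ := hm
            cases hinj e1
            cases ha' : d
            rw [ha'] at e3 hpos
            cases e3
            simp only [movePos] at hpos
            split_ifs at hpos
            cases hpos
            refine Or.inr (Or.inl ⟨a, b', k + 1, hk, rfl, ?_⟩)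
            rw [List.take_succ_eq_append_getElem hk, wordRel_append]
            exact ⟨b, hw, b', e2, rfl⟩
          · rw [List.take_length] at hw
            exact Or.inr (Or.inr ⟨a, b, hw⟩)
        · exact Or.inr (Or.inr ih)
    rcases inv with rfl | ⟨a, b, k, -, rfl, -⟩ | inv
    · exact absurd hacc h1
    · exact absurd hacc (h2 b)
    · exact inv
  · rintro ⟨a, b, hw⟩
    have run : ∀ k, k ≤ w.length → ∀ b, wordRel (w.take k) a b →
        Relation.ReflTransGen ((guess s0 acc node).Step w) (s0, 0) (node b, k + 1) := by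
      intro k
      induction k with
      | zero =>
        rintro - b rfl
        exact Relation.ReflTransGen.single ⟨HeadMove.moveRight, ⟨a, rfl⟩, by simp [movePos]⟩
      | succ k ih =>
        intro hk b hb
        rw [List.take_succ_eq_append_getElem hk, wordRel_append] at hb
        obtain ⟨c, hc, d, hd, rfl⟩ := hb
        refine (ih (by omega) c hc).tail ⟨HeadMove.moveRight, ?_, by simp [movePos]; omega⟩
        have hsc : scan w (k + 1) = Cell.letter w[k] := by
          simp [scan, List.getElem?_eq_getElem hk]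
        simp only [hsc]
        exact ⟨c, d, rfl, hd, rfl⟩
    refine ⟨(acc, w.length + 1), (run _ le_rfl b (by simpa using hw)).tail
      ⟨HeadMove.stay, ?_, rfl⟩, rfl⟩
    have hsc : scan w (w.length + 1) = Cell.rightEnd := by simp [scan]
    simp only [hsc]
    rfl

end Crest.Agent.TW
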