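import Mathlib

/-!
Two-sided behaviours over a Kleene algebra, with the star product.
-/

set_option autoImplicit false
set_option linter.unusedVariables false

open Computability

namespace Crest.Agent.TW

section KA

variable {K : Type*} [KleeneAlgebra K]

theorem slide (a b : K) : a * (b * a)∗ = (a * b)∗ * a := by
  apply le_antisymm
  · apply mul_kstar_le
    · calc a = 1 * a := (one_mul a).symm
        _ ≤ _ := by gcongr; exact one_le_kstar
    · calc (a * b)∗ * a * (b * a) = ((a * b)∗ * (a * b)) * a := by simp only [mul_assoc]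
        _ ≤ _ := by gcongr; exact kstar_mul_le_kstar
  · apply kstar_mul_le
    · calc a = a * 1 := (mul_one a).symm
        _ ≤ _ := by gcongr; exact one_le_kstar
    · calc a * b * (a * (b * a)∗) = a * ((b * a) * (b * a)∗) := by simp only [mul_assoc]
        _ ≤ _ := by gcongr; exact mul_kstar_le_kstar

theorem slide' (a b c : K) : a * ((b * a)∗ * c) = (a * b)∗ * (a * c) := by
  rw [← mul_assoc, slide, mul_assoc]

theorem le_kstar_mul (a b : K) : b ≤ a∗ * b := by
  calc b = 1 * b := (one_mul b).symm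
    _ ≤ _ := by gcongr; exact one_le_kstar

theorem le_mul_kstar (a b : K) : b ≤ b * a∗ := by
  calc b = b * 1 := (mul_one b).symm
    _ ≤ _ := by gcongr; exact one_le_kstar

theorem kstar_le_kstar {a b : K} (h : a ≤ b) : a∗ ≤ b∗ := kstar_mono h

theorem denest (a b : K) : (a + b)∗ = (a∗ * b)∗ * a∗ := by
  apply le_antisymm
  · apply kstar_le_of_mul_le_right
    · exact one_le_kstar.trans (le_kstar_mul _ _)
    · rw [add_mul]
      apply add_le
      · have h : (a∗ * b)∗ * a∗ = a∗ + a∗ * b * (a∗ * b)∗ * a∗ := by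
          conv_lhs => rw [← one_add_mul_kstar (a := a∗ * b)]
          rw [add_mul, one_mul]
        rw [h, mul_add]
        apply add_le_add mul_kstar_le_kstar
        simp only [← mul_assoc]
        gcongr
        exact mul_kstar_le_kstar
      · calc b * ((a∗ * b)∗ * a∗) ≤ (a∗ * b) * ((a∗ * b)∗ * a∗) := by
              gcongr; exact le_kstar_mul _ _
          _ = ((a∗ * b) * (a∗ * b)∗) * a∗ := by simp only [mul_assoc]
          _ ≤ _ := by gcongr; exact mul_kstar_le_kstar
  · have h1 : a∗ ≤ (a + b)∗ := kstar_le_kstar le_self_add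
    have h2 : b ≤ (a + b)∗ := le_add_self.trans le_kstar
    have h3 : (a∗ * b)∗ ≤ (a + b)∗ := by
      rw [← kstar_idem (a + b)]
      apply kstar_le_kstar
      rw [← kstar_mul_kstar (a + b)]
      gcongr
    calc _ ≤ (a + b)∗ * (a + b)∗ := by gcongr
      _ = _ := kstar_mul_kstar _

theorem denest' (a b : K) : (a + b)∗ = a∗ * (b * a∗)∗ := by
  rw [denest, slide]

theorem kstar_split {s s' u : K} (h' : s' ≤ s) (h : s ≤ s' + u) : s∗ ≤ s'∗ + s∗ * u * s∗ := by
  apply kstar_le_of_mul_le_right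
  · exact one_le_kstar.trans le_self_add
  · rw [mul_add]
    apply add_le
    · calc s * s'∗ ≤ (s' + u) * s'∗ := by gcongr
        _ = s' * s'∗ + u * s'∗ := add_mul _ _ _
        _ ≤ _ := by
          apply add_le_add mul_kstar_le_kstar
          gcongr
          exact le_kstar_mul _ _
    · refine le_trans ?_ le_add_self
      simp only [← mul_assoc]
      gcongr
      exact mul_kstar_le_kstar

theorem kstar_unfold (a b : K) : a∗ * b = b + a * (a∗ * b) := by
  conv_lhs => rw [← one_add_mul_kstar (a := a)]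
  rw [add_mul, one_mul, mul_assoc]

theorem kstar_unfold' (a b : K) : a∗ * b = b + a∗ * (a * b) := by
  conv_lhs => rw [← one_add_kstar_mul (a := a)]
  rw [add_mul, one_mul, mul_assoc]

end KA

/-- two-sided behaviours: left-to-right, left-to-left, right-to-left, right-to-right -/
@[ext] structure Beh (K : Type*) where
  a : K
  b : K
  c : K
  d : K

namespace Beh

variable {K : Type*} [KleeneAlgebra K]

instance : Mul (Beh K) :=
  ⟨fun x y => ⟨x.a * ((y.b * x.d)∗ * y.a), x.b + x.a * ((y.b * x.d)∗ * (y.b * x.c)),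
    y.c * ((x.d * y.b)∗ * x.c), y.d + y.c * ((x.d * y.b)∗ * (x.d * y.a))⟩⟩

instance : One (Beh K) := ⟨⟨1, 0, 1, 0⟩⟩

theorem mul_a (x y : Beh K) : (x * y).a = x.a * ((y.b * x.d)∗ * y.a) := rfl
theorem mul_b (x y : Beh K) : (x * y).b = x.b + x.a * ((y.b * x.d)∗ * (y.b * x.c)) := rfl
theorem mul_c (x y : Beh K) : (x * y).c = y.c * ((x.d * y.b)∗ * x.c) := rfl
theorem mul_d (x y : Beh K) : (x * y).d = y.d + y.c * ((x.d * y.b)∗ * (x.d * y.a)) := rfl
@[simp] theorem one_a : (1 : Beh K).a = 1 := rfl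
@[simp] theorem one_b : (1 : Beh K).b = 0 := rfl
@[simp] theorem one_c : (1 : Beh K).c = 1 := rfl
@[simp] theorem one_d : (1 : Beh K).d = 0 := rfl

/-- left-right mirror image -/
def mir (x : Beh K) : Beh K := ⟨x.c, x.d, x.a, x.b⟩

omit [KleeneAlgebra K] in
@[simp] theorem mir_mir (x : Beh K) : x.mir.mir = x := rfl
theorem mir_mul (x y : Beh K) : (x * y).mir = y.mir * x.mir := rfl
theorem mir_one : (1 : Beh K).mir = 1 := rfl

theorem star_b23 (x y z : Beh K) : ((y * z).b * x.d)∗ =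
    ((y.b * x.d)∗ * (y.a * ((z.b * y.d)∗ * (z.b * (y.c * x.d)))))∗ * (y.b * x.d)∗ := by
  rw [mul_b, add_mul, denest]; simp only [mul_assoc]

theorem star_d12 (x y z : Beh K) : (z.b * (x * y).d)∗ =
    ((z.b * y.d)∗ * (z.b * (y.c * (x.d * ((y.b * x.d)∗ * y.a)))))∗ * (z.b * y.d)∗ := by
  rw [mul_d, mul_add, denest, ← slide' x.d y.b y.a]

theorem both_star (x y z : Beh K) (r : K) :
    (y.b * x.d)∗ * (y.a * ((z.b * (x * y).d)∗ * r)) =
      ((y.b * x.d)∗ * (y.a * ((z.b * y.d)∗ * (z.b * (y.c * x.d)))))∗ *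
        ((y.b * x.d)∗ * (y.a * ((z.b * y.d)∗ * r))) := by
  have := slide' ((y.b * x.d)∗ * y.a) ((z.b * y.d)∗ * (z.b * (y.c * x.d))) ((z.b * y.d)∗ * r)
  simp only [mul_assoc] at this
  rw [star_d12, mul_assoc, this]

theorem pre_assoc (x y z : Beh K) : (y.b * x.d)∗ * (y.a * ((z.b * (x * y).d)∗ * z.a)) =
    ((y * z).b * x.d)∗ * (y * z).a := by
  rw [both_star, star_b23, mul_a, mul_assoc]

theorem post_assoc (x y z : Beh K) : ((y * z).b * x.d)∗ * y.a ≤
    (y.b * x.d)∗ * (y.a * (z.b * (x * y).d)∗) := by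
  have := both_star x y z 1
  rw [mul_one] at this
  rw [this, star_b23, mul_assoc]
  gcongr
  rw [mul_one]
  exact le_mul_kstar _ _

theorem assoc_a (x y z : Beh K) : (x * y * z).a = (x * (y * z)).a := by
  rw [mul_a, mul_a, mul_a x, ← pre_assoc]; simp only [mul_assoc]

theorem assoc_b (x y z : Beh K) : (x * y * z).b = (x * (y * z)).b := by
  rw [mul_b (x * y), mul_b x, mul_b x, mul_a, add_assoc, ← mul_assoc x.a, mul_assoc x.a,
    mul_assoc x.a, ← mul_add]
  congr 2
  rw [mul_assoc, both_star, star_b23, mul_c, mul_b, kstar_unfold (x.d * y.b)]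
  have h : y.b * ((x.d * y.b)∗ * x.c) = (y.b * x.d)∗ * (y.b * x.c) := slide' _ _ _
  rw [mul_assoc x.d y.b, h]
  generalize (y.b * x.d)∗ = u
  generalize (z.b * y.d)∗ = v
  have h2 := kstar_unfold' (u * (y.a * (v * (z.b * (y.c * x.d))))) (u * (y.b * x.c))
  simp only [mul_add, add_mul, mul_assoc] at h2 ⊢
  rw [h2]
  abel

instance : Monoid (Beh K) where
  mul_assoc x y z := by
    refine Beh.ext (assoc_a x y z) (assoc_b x y z) ?_ ?_
    · exact (assoc_a z.mir y.mir x.mir).symm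
    · exact (assoc_b z.mir y.mir x.mir).symm
  one_mul x := by ext <;> simp [mul_a, mul_b, mul_c, mul_d]
  mul_one x := by ext <;> simp [mul_a, mul_b, mul_c, mul_d]

instance : LE (Beh K) := ⟨fun x y => x.a ≤ y.a ∧ x.b ≤ y.b ∧ x.c ≤ y.c ∧ x.d ≤ y.d⟩

theorem le_def {x y : Beh K} : x ≤ y ↔ x.a ≤ y.a ∧ x.b ≤ y.b ∧ x.c ≤ y.c ∧ x.d ≤ y.d := Iff.rfl

theorem le_rfl' (x : Beh K) : x ≤ x := ⟨le_rfl, le_rfl, le_rfl, le_rfl⟩

theorem mul_mono {x x' y y' : Beh K} (h : x ≤ x') (h' : y ≤ y') : x * y ≤ x' * y' := by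
  obtain ⟨h1, h2, h3, h4⟩ := h
  obtain ⟨h5, h6, h7, h8⟩ := h'
  refine ⟨?_, ?_, ?_, ?_⟩
  · rw [mul_a, mul_a]; gcongr
  · rw [mul_b, mul_b]; gcongr
  · rw [mul_c, mul_c]; gcongr
  · rw [mul_d, mul_d]; gcongr

theorem b_le_mul (x y : Beh K) : x.b ≤ (x * y).b := le_self_add
theorem d_le_mul (x y : Beh K) : y.d ≤ (x * y).d := le_self_add

/-- bouncing at a boundary between two copies of `e` -/
def ell (e : Beh K) : K := (e.b * e.d)∗

theorem ell_mul_ell (e : Beh K) : e.ell * e.ell = e.ell := kstar_mul_kstar _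

theorem ell_mul_ell' (e : Beh K) (r : K) : e.ell * (e.ell * r) = e.ell * r := by
  rw [← mul_assoc, ell_mul_ell]

theorem one_le_ell (e : Beh K) : 1 ≤ e.ell := one_le_kstar

theorem ell_mono {p q : Beh K} (h1 : p * q = q) (h2 : q * p = q) : p.ell ≤ q.ell := by
  have := b_le_mul p q
  have := d_le_mul q p
  rw [h1] at *
  rw [h2] at *
  unfold ell; gcongr

theorem a_ell_a {p q : Beh K} (h1 : p * q = q) : p.a * (p.ell * q.a) ≤ q.a := by
  have := b_le_mul p q
  rw [h1] at this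
  conv_rhs => rw [← h1, mul_a]
  unfold ell; gcongr

theorem a_ell_a' {p q : Beh K} (h2 : q * p = q) : q.a * (p.ell * p.a) ≤ q.a := by
  have := d_le_mul q p
  rw [h2] at this
  conv_rhs => rw [← h2, mul_a]
  unfold ell; gcongr

theorem a_big_ell_a {p q : Beh K} (h1 : p * q = q) (h2 : q * p = q) :
    p.a * (q.ell * q.a) ≤ q.ell * q.a := by
  have := pre_assoc q p q
  rw [h1, h2] at this
  exact (le_kstar_mul _ _).trans this.le

theorem a_big_ell_a' {p q : Beh K} (hq : q * q = q) (h1 : p * q = q) (h2 : q * p = q) :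
    q.a * (q.ell * p.a) ≤ q.a * q.ell := by
  have := post_assoc q p q
  rw [h1, h2] at this
  unfold ell
  refine (mul_le_mul_right this q.a).trans (le_of_eq ?_)
  have h3 : q.a = q.a * ((p.b * q.d)∗ * p.a) := by
    conv_lhs => rw [← h2, mul_a]
  conv_rhs => rw [h3]
  simp only [mul_assoc]

/-! surgery on a middle factor -/

def PA (x y z : Beh K) : K :=
  x.a * (((y.b * x.d)∗ * (y.a * ((z.b * y.d)∗ * (z.b * (y.c * x.d)))))∗ * (y.b * x.d)∗)
def SA (x y z : Beh K) : K := (z.b * (x * y).d)∗ * z.a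
def PC (x y z : Beh K) : K := PA x y z * (y.a * ((z.b * y.d)∗ * z.b))
def SC (x y z : Beh K) : K := x.d * (((y * z).b * x.d)∗ * (y * z).a)

theorem triple_a (x y z : Beh K) : (x * y * z).a =
    x.a * (((y.b * x.d)∗ * (y.a * ((z.b * y.d)∗ * (z.b * (y.c * x.d)))))∗ *
      ((y.b * x.d)∗ * (y.a * ((z.b * y.d)∗ * z.a)))) := by
  rw [mul_a, mul_a, ← both_star]; simp only [mul_assoc]

theorem PA_mono {x x' : Beh K} (h : x ≤ x') (y z : Beh K) : PA x y z ≤ PA x' y z := by
  obtain ⟨h1, h2, h3, h4⟩ := h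
  unfold PA; gcongr

theorem SA_mono {x x' : Beh K} (h : x ≤ x') (y z : Beh K) : SA x y z ≤ SA x' y z := by
  have := (mul_mono h (le_rfl' y)).2.2.2
  unfold SA; gcongr

theorem PC_mono {x x' : Beh K} (h : x ≤ x') (y z : Beh K) : PC x y z ≤ PC x' y z := by
  have := PA_mono h y z
  unfold PC; gcongr

theorem SC_mono {x x' : Beh K} (h : x ≤ x') (y z : Beh K) : SC x y z ≤ SC x' y z := by
  obtain ⟨h1, h2, h3, h4⟩ := h
  unfold SC; gcongr

theorem SC_eq (x y z : Beh K) : SC x y z =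
    x.d * (((y.b * x.d)∗ * (y.a * ((z.b * y.d)∗ * (z.b * (y.c * x.d)))))∗ *
      ((y.b * x.d)∗ * (y.a * ((z.b * y.d)∗ * z.a)))) := by
  rw [SC, ← pre_assoc, both_star]

theorem SA_eq (x y z : Beh K) : SA x y z = (z.b * y.d)∗ * (z.a + z.b * (y.c * SC x y z)) := by
  have h1 := slide' ((y.b * x.d)∗ * y.a) ((z.b * y.d)∗ * (z.b * (y.c * x.d)))
    ((z.b * y.d)∗ * z.a)
  rw [SA, star_d12, mul_assoc, kstar_unfold, SC_eq, mul_add]
  simp only [mul_assoc] at h1 ⊢
  rw [h1]

theorem PA_SA (x y z : Beh K) : PA x y z * (y.a * SA x y z) ≤ (x * y * z).a := by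
  rw [PA, SA, triple_a, mul_assoc, mul_assoc, both_star, ← mul_assoc (_∗) (_∗), kstar_mul_kstar]

theorem PC_SC (x y z : Beh K) : PC x y z * (y.c * SC x y z) ≤ (x * y * z).a := by
  rw [PC, PA, SC_eq, triple_a]
  generalize (y.b * x.d)∗ = u
  generalize (z.b * y.d)∗ = v
  set s := u * (y.a * (v * (z.b * (y.c * x.d))))
  calc _ = x.a * (s∗ * (s * s∗) * (u * (y.a * (v * z.a)))) := by simp only [s, mul_assoc]
    _ ≤ x.a * (s∗ * s∗ * (u * (y.a * (v * z.a)))) := by gcongr; exact mul_kstar_le_kstar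
    _ = _ := by rw [kstar_mul_kstar]

theorem surgery (x y z y' : Beh K) (au cu : K) (hb : y'.b = y.b) (hd : y'.d = y.d)
    (ha : y'.a ≤ y.a) (hc : y'.c ≤ y.c) (hau : y.a ≤ y'.a + au) (hcu : y.c ≤ y'.c + cu) :
    (x * y * z).a ≤ (x * y' * z).a + PA x y z * (au * SA x y z) + PC x y z * (cu * SC x y z) := by
  rw [SA_eq, PC, PA, SC_eq, triple_a, triple_a, hb, hd]
  generalize (y.b * x.d)∗ = u
  generalize (z.b * y.d)∗ = v
  set s := u * (y.a * (v * (z.b * (y.c * x.d)))) with hs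
  set s' := u * (y'.a * (v * (z.b * (y'.c * x.d)))) with hs'
  have h1 : s' ≤ s := by rw [hs, hs']; gcongr
  have h2 : s ≤ s' + (u * (au * (v * (z.b * (y.c * x.d)))) +
      u * (y.a * (v * (z.b * (cu * x.d))))) := by
    calc s ≤ u * ((y'.a + au) * (v * (z.b * (y.c * x.d)))) := by rw [hs]; gcongr
      _ = u * (y'.a * (v * (z.b * (y.c * x.d)))) + u * (au * (v * (z.b * (y.c * x.d)))) := by
        simp only [mul_add, add_mul]
      _ ≤ u * (y'.a * (v * (z.b * ((y'.c + cu) * x.d)))) +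
          u * (au * (v * (z.b * (y.c * x.d)))) := by gcongr
      _ = s' + u * (y'.a * (v * (z.b * (cu * x.d)))) + u * (au * (v * (z.b * (y.c * x.d)))) := by
        simp only [mul_add, add_mul, hs']
      _ ≤ s' + u * (y.a * (v * (z.b * (cu * x.d)))) + u * (au * (v * (z.b * (y.c * x.d)))) := by
        gcongr
      _ = _ := by abel
  have h3 := kstar_split h1 h2
  have h4 : s'∗ ≤ s∗ := kstar_le_kstar h1
  calc _ ≤ x.a * ((s'∗ + s∗ * (u * (au * (v * (z.b * (y.c * x.d)))) +
      u * (y.a * (v * (z.b * (cu * x.d))))) * s∗) * (u * (y.a * (v * z.a)))) := by gcongr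
    _ = x.a * (s'∗ * (u * (y.a * (v * z.a)))) +
        x.a * (s∗ * (u * (au * (v * (z.b * (y.c * (x.d * (s∗ * (u * (y.a * (v * z.a))))))))))) +
        x.a * (s∗ * (u * (y.a * (v * (z.b * (cu * (x.d * (s∗ * (u * (y.a * (v * z.a))))))))))) := by
      simp only [mul_add, add_mul, mul_assoc, add_assoc]
    _ ≤ x.a * (s'∗ * (u * ((y'.a + au) * (v * z.a)))) +
        x.a * (s∗ * (u * (au * (v * (z.b * (y.c * (x.d * (s∗ * (u * (y.a * (v * z.a))))))))))) +
        x.a * (s∗ * (u * (y.a * (v * (z.b * (cu * (x.d * (s∗ * (u * (y.a * (v * z.a))))))))))) := by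
      gcongr
    _ = x.a * (s'∗ * (u * (y'.a * (v * z.a)))) + x.a * (s'∗ * (u * (au * (v * z.a)))) +
        x.a * (s∗ * (u * (au * (v * (z.b * (y.c * (x.d * (s∗ * (u * (y.a * (v * z.a))))))))))) +
        x.a * (s∗ * (u * (y.a * (v * (z.b * (cu * (x.d * (s∗ * (u * (y.a * (v * z.a))))))))))) := by
      simp only [mul_add, add_mul]
    _ ≤ x.a * (s'∗ * (u * (y'.a * (v * z.a)))) + x.a * (s∗ * (u * (au * (v * z.a)))) +
        x.a * (s∗ * (u * (au * (v * (z.b * (y.c * (x.d * (s∗ * (u * (y.a * (v * z.a))))))))))) +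
        x.a * (s∗ * (u * (y.a * (v * (z.b * (cu * (x.d * (s∗ * (u * (y.a * (v * z.a))))))))))) := by
      gcongr
    _ = _ := by simp only [mul_add, add_mul, mul_assoc, add_assoc]

end Beh

/-- binary relations as a Kleene algebra -/
def Rl (P : Type*) := P → P → Prop

namespace Rl

variable {P : Type*}

instance : CompleteLattice (Rl P) := inferInstanceAs (CompleteLattice (P → P → Prop))

instance : Mul (Rl P) := ⟨fun r s p q => ∃ m, r p m ∧ s m q⟩
instance : One (Rl P) := ⟨fun p q => p = q⟩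
instance : Add (Rl P) := ⟨fun r s p q => r p q ∨ s p q⟩
instance : Zero (Rl P) := ⟨fun p q => False⟩
instance : KStar (Rl P) := ⟨fun r => Relation.ReflTransGen r⟩

theorem mul_apply (r s : Rl P) (p q : P) : (r * s) p q ↔ ∃ m, r p m ∧ s m q := Iff.rfl
theorem one_apply (p q : P) : (1 : Rl P) p q ↔ p = q := Iff.rfl
theorem add_apply (r s : Rl P) (p q : P) : (r + s) p q ↔ r p q ∨ s p q := Iff.rfl
theorem zero_apply (p q : P) : (0 : Rl P) p q ↔ False := Iff.rfl
theorem kstar_apply (r : Rl P) (p q : P) : r∗ p q ↔ Relation.ReflTransGen r p q := Iff.rfl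
theorem le_def (r s : Rl P) : r ≤ s ↔ ∀ p q, r p q → s p q := Iff.rfl

@[ext] theorem ext {r s : Rl P} (h : ∀ p q, r p q ↔ s p q) : r = s := by
  funext p q; exact propext (h p q)

instance : Semiring (Rl P) where
  add_assoc a b c := by ext; simp only [add_apply]; tauto
  zero_add a := by ext; simp only [add_apply, zero_apply]; tauto
  add_zero a := by ext; simp only [add_apply, zero_apply]; tauto
  add_comm a b := by ext; simp only [add_apply]; tauto
  nsmul := nsmulRec
  mul_assoc a b c := by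
    ext; simp only [mul_apply]
    exact ⟨fun ⟨m, ⟨n, h1, h2⟩, h3⟩ => ⟨n, h1, m, h2, h3⟩,
      fun ⟨n, h1, m, h2, h3⟩ => ⟨m, ⟨n, h1, h2⟩, h3⟩⟩
  one_mul a := by ext; simp [mul_apply, one_apply]
  mul_one a := by ext; simp [mul_apply, one_apply]
  zero_mul a := by ext; simp [mul_apply, zero_apply]
  mul_zero a := by ext; simp [mul_apply, zero_apply]
  left_distrib a b c := by
    ext; simp only [mul_apply, add_apply, and_or_left, exists_or]
  right_distrib a b c := by
    ext; simp only [mul_apply, add_apply, or_and_right, exists_or]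

instance : KleeneAlgebra (Rl P) where
  __ := (inferInstance : Semiring (Rl P))
  __ := (inferInstance : CompleteLattice (Rl P))
  add_eq_sup a b := rfl
  one_le_kstar a p q h := by cases h; exact Relation.ReflTransGen.refl
  mul_kstar_le_kstar a p q := fun ⟨m, h1, h2⟩ => Relation.ReflTransGen.head h1 h2
  kstar_mul_le_kstar a p q := fun ⟨m, h1, h2⟩ => Relation.ReflTransGen.tail h1 h2
  mul_kstar_le_self a b h p q := by
    rintro ⟨m, h1, h2⟩
    induction h2 with
    | refl => exact h1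
    | tail _ h3 ih => exact h _ _ ⟨_, ih, h3⟩
  kstar_mul_le_self a b h p q := by
    rintro ⟨m, h1, h2⟩
    induction h1 using Relation.ReflTransGen.head_induction_on with
    | refl => exact h2
    | head h3 _ ih => exact h _ _ ⟨_, h3, ih⟩

instance [Finite P] : Finite (Rl P) := inferInstanceAs (Finite (P → P → Prop))

instance [Finite P] : Finite (Beh (Rl P)) :=
  Finite.of_injective (fun x : Beh (Rl P) => (x.a, x.b, x.c, x.d)) (by
    intro x y h
    simp only [Prod.mk.injEq] at h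
    exact Beh.ext h.1 h.2.1 h.2.2.1 h.2.2.2)

end Rl

end Crest.Agent.TW
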