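import Crest.Agent.TwoWay.Strand

/-!
The doubling argument.
-/

set_option autoImplicit false
set_option linter.unusedVariables false

open Computability

namespace Crest.Agent.TW

open Beh

theorem exists_idem_pow {N : Type*} [Monoid N] [Finite N] (y : N) :
    ∃ n, y ^ (n + 1) * y ^ (n + 1) = y ^ (n + 1) := by
  obtain ⟨i, j, hij, h⟩ : ∃ i j : ℕ, i < j ∧ y ^ i = y ^ j := by
    obtain ⟨i, j, hne, h⟩ := Finite.exists_ne_map_eq_of_infinite (fun n : ℕ => y ^ n)
    rcases lt_or_gt_of_ne hne with h' | h'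
    · exact ⟨i, j, h', h⟩
    · exact ⟨j, i, h', h.symm⟩
  obtain ⟨d, rfl⟩ := Nat.exists_eq_add_of_lt hij
  have key : ∀ k m, y ^ (i + m + k * (d + 1)) = y ^ (i + m) := by
    intro k m
    induction k with
    | zero => simp
    | succ k ih =>
      have : i + m + (k + 1) * (d + 1) = (i + d + 1) + (m + k * (d + 1)) := by ring
      rw [this, pow_add, ← h, ← pow_add, ← add_assoc, ih]
  refine ⟨(i + 1) * (d + 1) - 1, ?_⟩
  have hpos : 0 < (i + 1) * (d + 1) := by positivity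
  rw [Nat.sub_add_cancel hpos, ← pow_add]
  have h1 : i ≤ (i + 1) * (d + 1) := by nlinarith
  obtain ⟨m, hm⟩ := Nat.exists_eq_add_of_le h1
  have := key (i + 1) m
  rwa [← hm] at this

theorem exists_min_idem {N : Type*} [Monoid N] [Finite N] (U : Set N) (e : N) (heU : e ∈ U)
    (he : e * e = e) (hU : ∀ w ∈ U, ∀ n, w ^ (n + 1) ∈ U) :
    ∃ E ∈ U, E * E = E ∧ ∀ w ∈ U, E * w = w → w * E = w → ∃ n, w ^ (n + 1) = E := by
  obtain ⟨E, ⟨hE1, hE2⟩, hmin⟩ := Set.exists_min_image {y | y ∈ U ∧ y * y = y}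
    (fun E => {z | E * z = z ∧ z * E = z}.ncard) (Set.toFinite _) ⟨e, heU, he⟩
  refine ⟨E, hE1, hE2, fun w hw h1 h2 => ?_⟩
  obtain ⟨n, hn⟩ := exists_idem_pow w
  refine ⟨n, ?_⟩
  have h3 : E * w ^ (n + 1) = w ^ (n + 1) := by rw [pow_succ', ← mul_assoc, h1]
  have h4 : w ^ (n + 1) * E = w ^ (n + 1) := by rw [pow_succ, mul_assoc, h2]
  have hsub : {z | w ^ (n + 1) * z = z ∧ z * w ^ (n + 1) = z} ⊆ {z | E * z = z ∧ z * E = z} := by
    rintro z ⟨a, b⟩
    exact ⟨by rw [← a, ← mul_assoc, h3], by rw [← b, mul_assoc, h4]⟩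
  have := Set.eq_of_subset_of_ncard_le hsub (hmin _ ⟨hU w hw n, hn⟩) (Set.toFinite _)
  have hE : E ∈ {z | E * z = z ∧ z * E = z} := ⟨hE2, hE2⟩
  rw [← this] at hE
  exact h4.symm.trans hE.1

variable {P : Type*}

/-- a context: a monoid of behaviours paired with relations -/
structure Ctx {ι : Type*} (T : Submonoid (Beh (Rl P) × Rl ι)) : Prop where
  surj : ∀ R : Rl ι, ∃ m, (m, R) ∈ T
  anti : ∀ e ∈ T, ∀ x ∈ T, e.1 * e.1 = e.1 → e.1 * x.1 = x.1 → x.1 * e.1 = x.1 → e.1 ≤ x.1 →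
    x.2 ≤ e.2

/-- identity plus one edge -/
def edge {ι : Type*} (p q : ι) : Rl ι := fun u v => u = v ∨ (u = p ∧ v = q)

/-- graph of a permutation -/
def gph {ι : Type*} (σ : Equiv.Perm ι) : Rl ι := fun u v => σ u = v

theorem gph_mul_inv {ι : Type*} (σ : Equiv.Perm ι) : gph σ * gph σ⁻¹ = 1 := by
  ext u v; simp [Rl.mul_apply, gph, Rl.one_apply]

theorem gph_edge {ι : Type*} (σ : Equiv.Perm ι) (p q : ι) :
    gph σ * edge (σ p) (σ q) * gph σ⁻¹ = edge p q := by
  ext u v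
  simp only [Rl.mul_apply, gph, edge, exists_eq_left']
  constructor
  · rintro ⟨m, h | ⟨h1, h2⟩, rfl⟩
    · left; rw [← h]; simp
    · right; rw [h2]; exact ⟨σ.injective h1, by simp⟩
  · rintro (rfl | ⟨rfl, rfl⟩)
    · exact ⟨σ u, Or.inl rfl, by simp⟩
    · exact ⟨σ v, Or.inr ⟨rfl, rfl⟩, by simp⟩

theorem exists_perm_pair {ι : Type*} {p q p' q' : ι} (h : p ≠ q) (h' : p' ≠ q') :
    ∃ σ : Equiv.Perm ι, σ p' = p ∧ σ q' = q := by
  classical
  refine ⟨Equiv.swap (Equiv.swap p' p q') q * Equiv.swap p' p, ?_, ?_⟩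
  · simp only [Equiv.Perm.mul_apply, Equiv.swap_apply_left]
    apply Equiv.swap_apply_of_ne_of_ne _ h
    intro hc
    have : Equiv.swap p' p p' = Equiv.swap p' p q' := by rw [Equiv.swap_apply_left]; exact hc
    exact h' ((Equiv.swap p' p).injective this)
  · simp

theorem Ctx.exists_conj [Finite P] {ι : Type*} [Finite ι] {T : Submonoid (Beh (Rl P) × Rl ι)}
    (hT : Ctx T) {e x : Beh (Rl P) × Rl ι} (heT : e ∈ T) (hxT : x ∈ T) (he : e * e = e)
    (he2 : e.2 = 1) {p q : ι} (hpq : p ≠ q) (hx2 : x.2 = edge p q) :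
    ∃ E ∈ T, E * E = E ∧ E.2 = 1 ∧ ∀ p' q', p' ≠ q' → ∃ g ∈ T, ∃ g' ∈ T,
      g * e * g' = E ∧ (g * x * g').2 = edge p' q' := by
  obtain ⟨E, ⟨hET, hE1, hE2, hE3⟩, hE, hmin⟩ := exists_min_idem
    {y | y ∈ T ∧ e * y = y ∧ y * e = y ∧ y.2 = 1} e ⟨heT, he, he, he2⟩ he (by
      rintro w ⟨h1, h2, h3, h4⟩ n
      exact ⟨pow_mem h1 _, by rw [pow_succ', ← mul_assoc, h2], by rw [pow_succ, mul_assoc, h3],
        by rw [Prod.pow_snd, h4, one_pow]⟩)
  refine ⟨E, hET, hE, hE3, fun p' q' h' => ?_⟩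
  obtain ⟨σ, rfl, rfl⟩ := exists_perm_pair hpq h'
  obtain ⟨m, hm⟩ := hT.surj (gph σ)
  obtain ⟨m', hm'⟩ := hT.surj (gph σ⁻¹)
  set g0 : Beh (Rl P) × Rl ι := (m, gph σ)
  set g1 : Beh (Rl P) × Rl ι := (m', gph σ⁻¹)
  have hw2 : (E * g0 * E * (g1 * E)).2 = 1 := by
    simp only [Prod.snd_mul, hE3, one_mul, mul_one, g0, g1, gph_mul_inv]
  have hwT : E * g0 * E * (g1 * E) ∈ T := mul_mem (mul_mem (mul_mem hET hm) hET) (mul_mem hm' hET)
  obtain ⟨n, hn⟩ := hmin (E * g0 * E * (g1 * E))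
    ⟨hwT, by simp only [← mul_assoc, hE1], by simp only [mul_assoc, hE2], hw2⟩
    (by simp only [← mul_assoc, hE]) (by simp only [mul_assoc, hE])
  refine ⟨E * g0 * E, mul_mem (mul_mem hET hm) hET, g1 * E * (E * g0 * E * (g1 * E)) ^ n,
    mul_mem (mul_mem hm' hET) (pow_mem hwT n), ?_, ?_⟩
  · rw [mul_assoc (E * g0), hE2, ← mul_assoc, ← pow_succ', hn]
  · simp only [Prod.snd_mul, Prod.pow_snd] at hw2 ⊢
    rw [hw2, hE3, hx2]
    simp only [one_mul, mul_one, one_pow, g0, g1, gph_edge]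

/-- restriction to the middle level -/
def res {ι : Type*} (lev : ι → ℕ) (R : Rl ι) : Rl {u // lev u = 1} := fun u v => R u.1 v.1

def Tri {ι : Type*} (lev : ι → ℕ) (R : Rl ι) : Prop := ∀ u v, R u v → lev u ≤ lev v

def subT {ι : Type*} (lev : ι → ℕ) (T : Submonoid (Beh (Rl P) × Rl ι)) :
    Submonoid (Beh (Rl P) × Rl {u // lev u = 1}) where
  carrier := {z | ∃ w ∈ T, Tri lev w.2 ∧ z = (w.1, res lev w.2)}
  one_mem' := ⟨1, one_mem _, fun u v h => by cases h; rfl, by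
    ext : 1
    · rfl
    · ext u v; simp [res, Rl.one_apply, Subtype.ext_iff]⟩
  mul_mem' := by
    rintro _ _ ⟨w, hw, ht, rfl⟩ ⟨w', hw', ht', rfl⟩
    refine ⟨w * w', mul_mem hw hw', fun u v ⟨m, h1, h2⟩ => (ht _ _ h1).trans (ht' _ _ h2), ?_⟩
    ext : 1
    · rfl
    · ext u v
      constructor
      · rintro ⟨m, h1, h2⟩; exact ⟨m.1, h1, h2⟩
      · rintro ⟨m, h1, h2⟩
        have a := ht _ _ h1
        have b := ht' _ _ h2
        rw [u.2] at a
        rw [v.2] at b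
        exact ⟨⟨m, le_antisymm b a⟩, h1, h2⟩

theorem Ctx.sub {ι : Type*} {T : Submonoid (Beh (Rl P) × Rl ι)} (hT : Ctx T) (lev : ι → ℕ) :
    Ctx (subT lev T) where
  surj R := by
    obtain ⟨m, hm⟩ := hT.surj (fun u v => ∃ hu hv, R ⟨u, hu⟩ ⟨v, hv⟩)
    refine ⟨m, _, hm, fun u v ⟨hu, hv, _⟩ => by rw [hu, hv], ?_⟩
    ext : 1
    · rfl
    · ext u v; simp [res, u.2, v.2]
  anti := by
    rintro _ ⟨e, he, -, rfl⟩ _ ⟨x, hx, -, rfl⟩ h1 h2 h3 h4 u v h
    exact hT.anti e he x hx h1 h2 h3 h4 _ _ h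

/-- kill the node `a` and add the edges in `A` -/
def FF {ι : Type*} (a : ι) (A : Set (ι × ι)) : Rl ι := fun u v => (u = v ∧ u ≠ a) ∨ (u, v) ∈ A

theorem FF_mul {ι : Type*} {a : ι} {S T : Set ι} (h1 : a ∉ S) (h2 : a ∉ T) (h3 : Disjoint S T)
    {A A' : Set (ι × ι)} (hA : A ⊆ S ×ˢ T) (hA' : A' ⊆ S ×ˢ T) :
    FF a A * FF a A' = FF a (A ∪ A') := by
  ext u v
  constructor
  · rintro ⟨m, ⟨rfl, h⟩ | h, ⟨rfl, h'⟩ | h'⟩
    · exact Or.inl ⟨rfl, h⟩
    · exact Or.inr (Or.inr h')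
    · exact Or.inr (Or.inl h)
    · exact absurd (hA h).2 (Set.disjoint_left.mp h3 (hA' h').1)
  · rintro (⟨rfl, h⟩ | h | h)
    · exact ⟨u, Or.inl ⟨rfl, h⟩, Or.inl ⟨rfl, h⟩⟩
    · exact ⟨v, Or.inr h, Or.inl ⟨rfl, fun hc => h2 (hc ▸ (hA h).2)⟩⟩
    · exact ⟨u, Or.inl ⟨rfl, fun hc => h1 (hc ▸ (hA' h).1)⟩, Or.inr h⟩

theorem FF_gadget {ι : Type*} {a s t : ι} (h1 : s ≠ a) (h2 : t ≠ a) :
    FF a ∅ * edge s a * edge a t * FF a ∅ = FF a {(s, t)} := by
  ext u v
  simp only [Rl.mul_apply, FF, edge, Set.mem_empty_iff_false, or_false, Set.mem_singleton_iff,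
    Prod.mk.injEq]
  constructor
  · rintro ⟨_, ⟨m, ⟨_, ⟨rfl, h⟩, h3⟩, h4⟩, rfl, h5⟩
    rcases h3 with rfl | ⟨rfl, rfl⟩ <;> rcases h4 with rfl | ⟨h6, rfl⟩
    · exact Or.inl ⟨rfl, h⟩
    · exact absurd h6 h
    · exact absurd rfl h5
    · exact Or.inr ⟨rfl, rfl⟩
  · rintro (⟨rfl, h⟩ | ⟨rfl, rfl⟩)
    · exact ⟨u, ⟨u, ⟨u, ⟨rfl, h⟩, Or.inl rfl⟩, Or.inl rfl⟩, rfl, h⟩
    · exact ⟨v, ⟨a, ⟨u, ⟨rfl, h1⟩, Or.inr ⟨rfl, rfl⟩⟩, Or.inr ⟨rfl, rfl⟩⟩, rfl, h2⟩

theorem pow_idem {N : Type*} [Monoid N] {y : N} (h : y * y = y) (n : ℕ) : y ^ (n + 1) = y := by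
  induction n with
  | zero => simp
  | succ n ih => rw [pow_succ, ih, h]

theorem exists_chain [Finite P] {ι : Type*} [Finite ι] {T : Submonoid (Beh (Rl P) × Rl ι)}
    (Q : Beh (Rl P) × Rl ι → Prop) (hQ : ∀ y z, Q y → Q z → Q (y * z))
    (κ : Beh (Rl P) × Rl ι) (hκ : κ * κ = κ) (hQκ : Q κ) (y : ℕ → Beh (Rl P) × Rl ι)
    (hy : ∀ n, Q (y n)) (F : ℕ → Rl ι) (hF0 : κ.2 = F 0) (hF1 : ∀ n, F n * F n = F n)
    (hF2 : ∀ n, F n * (y n).2 * F n = F (n + 1)) :
    ∃ g : ℕ → Beh (Rl P) × Rl ι, g 0 = κ ∧ (∀ n, g n * g n = g n) ∧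
      (∀ n, g n * g (n + 1) = g (n + 1)) ∧ (∀ n, g (n + 1) * g n = g (n + 1)) ∧
      (∀ n, Q (g n)) ∧ ∀ n, (g n).2 = F n := by
  choose ω hω using fun z : Beh (Rl P) × Rl ι => exists_idem_pow z
  let g : ℕ → Beh (Rl P) × Rl ι := fun n =>
    Nat.rec κ (fun n z => (z * y n * z) ^ (ω (z * y n * z) + 1)) n
  have hs : ∀ n, g (n + 1) = (g n * y n * g n) ^ (ω (g n * y n * g n) + 1) := fun n => rfl
  have hid : ∀ n, g n * g n = g n := by
    intro n
    cases n with
    | zero => exact hκ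
    | succ n => rw [hs]; exact hω _
  have hpow : ∀ z, Q z → ∀ n, Q (z ^ (n + 1)) := by
    intro z hz n
    induction n with
    | zero => simpa using hz
    | succ n ih => rw [pow_succ]; exact hQ _ _ ih hz
  refine ⟨g, rfl, hid, fun n => ?_, fun n => ?_, fun n => ?_, fun n => ?_⟩
  · rw [hs, pow_succ']; simp only [← mul_assoc, hid]
  · rw [hs, pow_succ]; simp only [mul_assoc, hid]
  · induction n with
    | zero => exact hQκ
    | succ n ih => rw [hs]; exact hpow _ (hQ _ _ (hQ _ _ ih (hy n)) ih) _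
  · induction n with
    | zero => exact hF0
    | succ n ih => rw [hs, Prod.pow_snd, Prod.snd_mul, Prod.snd_mul, ih, hF2, pow_idem (hF1 _)]

theorem main_bound [Finite P] (m : ℕ) : ∀ (ι : Type) [Fintype ι], 2 + 31 * m ≤ Fintype.card ι →
    ∀ T : Submonoid (Beh (Rl P) × Rl ι), Ctx T → ∀ e ∈ T, ∀ x ∈ T, e * e = e → e * x = x →
      x * e = x → e.2 = 1 → ∀ p q, p ≠ q → x.2 = edge p q → 2 ^ m ≤ del e.1 x.1 := by
  induction m with
  | zero =>
    intro ι _ _ T hT e heT x hxT he h1 h2 he2 p q hpq hx2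
    have a := congrArg Prod.fst he
    have b := congrArg Prod.fst h1
    have c := congrArg Prod.fst h2
    rw [pow_zero, Nat.one_le_iff_ne_zero]
    intro h0
    have := hT.anti e heT x hxT a b c (le_of_del a b c h0) p q (by rw [hx2]; exact Or.inr ⟨rfl, rfl⟩)
    rw [he2] at this
    exact hpq this
  | succ m ih =>
    intro ι _ hcard T hT e heT x hxT he h1 h2 he2 p q hpq hx2
    classical
    obtain ⟨f⟩ : Nonempty (Option (Fin 16 ⊕ Fin 16) ↪ ι) :=
      Function.Embedding.nonempty_of_card_le (by simp; omega)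
    set a := f none
    set s : Fin 16 → ι := fun i => f (some (Sum.inl i)) with hs
    set t : Fin 16 → ι := fun j => f (some (Sum.inr j)) with ht
    have hsa : ∀ i, s i ≠ a := fun i h => by simpa using f.injective h
    have hta : ∀ j, t j ≠ a := fun j h => by simpa using f.injective h
    have hst : ∀ i j, s i ≠ t j := fun i j h => by simpa using f.injective h
    have hsi : Function.Injective s := fun i j h => by simpa using f.injective h
    have hti : Function.Injective t := fun i j h => by simpa using f.injective h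
    have haS : a ∉ Set.range s := fun ⟨i, h⟩ => hsa i h
    have haT : a ∉ Set.range t := fun ⟨i, h⟩ => hta i h
    have hST : Disjoint (Set.range s) (Set.range t) :=
      Set.disjoint_left.mpr fun _ ⟨i, h⟩ ⟨j, h'⟩ => hst i j (h.trans h'.symm)
    obtain ⟨E, hET, hE, hE2, hconj⟩ := hT.exists_conj heT hxT he he2 hpq hx2
    choose g hgT g' hg'T hg1 hg2 using fun i => hconj (s i) a (hsa i)
    choose h hhT h' hh'T hh1 hh2 using fun j => hconj a (t j) (hta j).symm
    obtain ⟨k0, hk0⟩ := hT.surj (FF a ∅)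
    obtain ⟨n0, hκ⟩ := exists_idem_pow (E * (k0, FF a ∅) * E)
    set κ := (E * (k0, FF a ∅) * E) ^ (n0 + 1) with hκd
    have hκT : κ ∈ T := pow_mem (mul_mem (mul_mem hET hk0) hET) _
    have hE3 : E * κ = κ := by rw [hκd, pow_succ']; simp only [← mul_assoc, hE]
    have hE4 : κ * E = κ := by rw [hκd, pow_succ]; simp only [mul_assoc, hE]
    have hmul := fun A A' hA hA' => FF_mul haS haT hST (A := A) (A' := A') hA hA'
    have hκ2 : κ.2 = FF a ∅ := by
      rw [hκd, Prod.pow_snd, Prod.snd_mul, Prod.snd_mul, hE2, one_mul, mul_one, pow_idem]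
      rw [hmul _ _ (Set.empty_subset _) (Set.empty_subset _), Set.union_self]
    clear_value κ
    have fst := fun {u v : Beh (Rl P) × Rl ι} (h : u = v) => congrArg Prod.fst h
    have mfst := fun {u v : Beh (Rl P) × Rl ι} (h : u = v) => congrArg (fun z => z.1.mir) h
    obtain ⟨B1, hB1, hB1'⟩ := two_cut (fst hκ) (fst he) (fst h1) (fst h2) (fst hE3) (fst hE4)
      (fun i => (g i).1) (fun i => (g' i).1) (fun j => (h j).1) (fun j => (h' j).1)
      (fun i => fst (hg1 i)) (fun j => fst (hh1 j))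
    obtain ⟨B2, hB2, hB2'⟩ := two_cut (κ := κ.1.mir) (e := e.1.mir) (x := x.1.mir) (E := E.1.mir)
      (mfst hκ) (mfst he) (mfst h2) (mfst h1) (mfst hE4) (mfst hE3)
      (fun j => (h' j).1.mir) (fun j => (h j).1.mir) (fun i => (g' i).1.mir) (fun i => (g i).1.mir)
      (fun j => by rw [mul_assoc]; exact mfst (hh1 j))
      (fun i => by rw [mul_assoc]; exact mfst (hg1 i))
    rw [del_mir] at hB2
    simp only [Fintype.card_fin] at hB1 hB2
    let en : ℕ → Fin 16 × Fin 16 := fun n => (⟨n / 16 % 16, by omega⟩, ⟨n % 16, by omega⟩)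
    let A : ℕ → Set (ι × ι) := fun n => {z | ∃ k < n, z = (s (en k).1, t (en k).2)}
    have hA : ∀ n, A n ⊆ Set.range s ×ˢ Set.range t := by
      rintro n _ ⟨k, -, rfl⟩; exact ⟨⟨_, rfl⟩, ⟨_, rfl⟩⟩
    obtain ⟨c, hc0, hc1, hc2, hc3, hcQ, hcF⟩ := exists_chain (T := T)
      (fun z => z ∈ T ∧ κ * z = z ∧ z * κ = z ∧ (∀ p, tt κ.1 κ.1 p p → p ∉ B1 → tt κ.1 z.1 p p) ∧
        (∀ p, tt κ.1.mir κ.1.mir p p → p ∉ B2 → tt κ.1.mir z.1.mir p p))
      (by
        rintro y z ⟨a1, a2, a3, a4, a5⟩ ⟨b1, b2, b3, b4, b5⟩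
        refine ⟨mul_mem a1 b1, by rw [← mul_assoc, a2], by rw [mul_assoc, b3], fun p hp hb => ?_,
          fun p hp hb => ?_⟩
        · exact tt_mul_le (fst b2) (fst a3) _ _ ⟨p, a4 p hp hb, b4 p hp hb⟩
        · exact tt_mul_le (p := κ.1.mir) (q := z.1.mir) (q' := y.1.mir) (mfst a3) (mfst b2) _ _
            ⟨p, b5 p hp hb, a5 p hp hb⟩)
      κ hκ ⟨hκT, hκ, hκ, fun p hp _ => hp, fun p hp _ => hp⟩
      (fun n => κ * (g (en n).1 * x * g' (en n).1) * (h (en n).2 * x * h' (en n).2) * κ)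
      (fun n => ⟨mul_mem (mul_mem (mul_mem hκT (mul_mem (mul_mem (hgT _) hxT) (hg'T _)))
          (mul_mem (mul_mem (hhT _) hxT) (hh'T _))) hκT,
        by simp only [← mul_assoc, hκ], by simp only [mul_assoc, hκ],
        fun p hp hb => hB1' p hp hb _ _, fun p hp hb => by
          have := hB2' p hp hb (en n).2 (en n).1
          simp only [Prod.fst_mul, mir_mul, mul_assoc] at this ⊢
          exact this⟩)
      (fun n => FF a (A n)) (by rw [hκ2]; simp [A])
      (fun n => by rw [hmul _ _ (hA n) (hA n), Set.union_self])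
      (fun n => by
        have hz : {(s (en n).1, t (en n).2)} ⊆ Set.range s ×ˢ Set.range t := by
          rintro _ rfl; exact ⟨⟨_, rfl⟩, ⟨_, rfl⟩⟩
        rw [Prod.snd_mul, Prod.snd_mul, Prod.snd_mul, hg2, hh2, hκ2, FF_gadget (hsa _) (hta _),
          hmul _ _ (hA n) hz, hmul _ _ (Set.union_subset (hA n) hz) (hA n)]
        congr 1
        ext z
        simp only [A, Set.mem_union, Set.mem_ofPred_eq, Set.mem_singleton_iff]
        constructor
        · rintro ((⟨k, hk, h⟩ | h) | ⟨k, hk, h⟩)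
          · exact ⟨k, by omega, h⟩
          · exact ⟨n, by omega, h⟩
          · exact ⟨k, by omega, h⟩
        · rintro ⟨k, hk, h⟩
          rcases Nat.lt_succ_iff_lt_or_eq.mp hk with hk | rfl
          · exact Or.inr ⟨k, hk, h⟩
          · exact Or.inl (Or.inr h))
    have s1 := chain_sum (fun n => (c n).1) (fst hc0) (fun n => fst (hc1 n)) (fun n => fst (hc2 n))
      (fun n => fst (hc3 n)) (fun n => fst (hcQ n).2.1) (fun n => fst (hcQ n).2.2.1) B1
      (fun p hp hb n => (hcQ n).2.2.2.1 p hp hb) 256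
    have s2 := chain_sum (fun n => (c n).1.mir) (mfst hc0) (fun n => mfst (hc1 n))
      (fun n => mfst (hc3 n)) (fun n => mfst (hc2 n)) (fun n => mfst (hcQ n).2.2.1)
      (fun n => mfst (hcQ n).2.1) B2 (fun p hp hb n => (hcQ n).2.2.2.2 p hp hb) 256
    obtain ⟨n, hn, hdel⟩ : ∃ n < 256, 2 * del (c n).1 (c (n + 1)).1 ≤ del e.1 x.1 := by
      by_contra hcon
      push Not at hcon
      have s3 : ∑ n ∈ Finset.range 256, (del e.1 x.1 + 1) ≤
          ∑ n ∈ Finset.range 256, 2 * del (c n).1 (c (n + 1)).1 :=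
        Finset.sum_le_sum fun n hn => hcon n (Finset.mem_range.mp hn)
      rw [← Finset.mul_sum] at s3
      unfold del at s3
      rw [Finset.sum_add_distrib (f := fun n => dR (c n).1 (c (n + 1)).1)] at s3
      simp only [Finset.sum_const, Finset.card_range, smul_eq_mul] at s3
      unfold del at hB1 hB2
      omega
    set i := (en n).1
    set j := (en n).2
    let lev : ι → ℕ := fun u => if u ∈ Set.range s ∧ u ≠ s i then 0
      else if (u ∈ Set.range t ∧ u ≠ t j) ∨ u = a then 2 else 1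
    have l1 : ∀ k, lev (s k) = if k = i then 1 else 0 := fun k => by
      have : s k ∉ Set.range t := Set.disjoint_left.mp hST ⟨k, rfl⟩
      simp only [lev, this, false_and, false_or, hsa, if_false]
      by_cases hk : k = i <;> simp [hk, hsi.eq_iff]
    have l2 : ∀ k, lev (t k) = if k = j then 1 else 2 := fun k => by
      have : t k ∉ Set.range s := Set.disjoint_right.mp hST ⟨k, rfl⟩
      simp only [lev, this, false_and, if_false]
      by_cases hk : k = j <;> simp [hk, hta, hti.eq_iff]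
    have hTri : ∀ k, Tri lev (FF a (A k)) := by
      rintro k u v (⟨rfl, -⟩ | ⟨l, -, hl⟩)
      · rfl
      · obtain ⟨rfl, rfl⟩ := Prod.mk.inj hl
        rw [l1, l2]; split_ifs <;> omega
    have la : lev a = 2 := by simp only [lev, haS, false_and, if_false, or_true, if_true]
    have hcard' : 2 + 31 * m ≤ Fintype.card {u // lev u = 1} := by
      rw [Fintype.card_subtype]
      have e1 := Finset.card_filter_add_card_filter_not (s := Finset.univ) (fun u => lev u = 1)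
      have e2 : (Finset.univ.filter fun u => ¬ lev u = 1) ⊆
          ((Finset.univ.erase (some (Sum.inl i))).erase (some (Sum.inr j))).map f := by
        intro u hu
        simp only [Finset.mem_filter, Finset.mem_univ, true_and, lev] at hu
        rw [Finset.mem_map]
        split_ifs at hu with c1 c2
        · obtain ⟨⟨k, rfl⟩, hk⟩ := c1
          exact ⟨some (Sum.inl k), by simpa [hsi.eq_iff] using hk, rfl⟩
        · rcases c2 with ⟨⟨k, rfl⟩, hk⟩ | rfl
          · exact ⟨some (Sum.inr k), by simpa [hti.eq_iff] using hk, rfl⟩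
          · exact ⟨none, by simp, rfl⟩
        · exact absurd rfl hu
      have e3 := Finset.card_le_card e2
      rw [Finset.card_map, Finset.card_erase_of_mem (by simp), Finset.card_erase_of_mem (by simp)]
        at e3
      simp only [Finset.card_univ, Fintype.card_option, Fintype.card_sum, Fintype.card_fin] at e1 e3
      omega
    have hres : ∀ k, ∀ u v : {u // lev u = 1}, res lev (FF a (A k)) u v ↔
        u = v ∨ ((s i, t j) ∈ A k ∧ u.1 = s i ∧ v.1 = t j) := by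
      intro k u v
      constructor
      · rintro (⟨h, -⟩ | ⟨l, hl, hl'⟩)
        · exact Or.inl (Subtype.ext h)
        · obtain ⟨e1, e2⟩ := Prod.mk.inj hl'
          have a1 := u.2
          have a2 := v.2
          rw [e1, l1] at a1
          rw [e2, l2] at a2
          have b1 : (en l).1 = i := by by_contra hc; simp [hc] at a1
          have b2 : (en l).2 = j := by by_contra hc; simp [hc] at a2
          exact Or.inr ⟨⟨l, hl, by rw [b1, b2]⟩, by rw [e1, b1], by rw [e2, b2]⟩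
      · rintro (rfl | ⟨h, e1, e2⟩)
        · exact Or.inl ⟨rfl, fun hc => by have := u.2; rw [hc, la] at this; omega⟩
        · right; rw [e1, e2]; exact h
    have hnot : (s i, t j) ∉ A n := by
      rintro ⟨k, hk, hk'⟩
      obtain ⟨e1, e2⟩ := Prod.mk.inj hk'
      have e3 := congrArg Fin.val (hsi e1)
      have e4 := congrArg Fin.val (hti e2)
      simp only [i, j, en] at e3 e4
      omega
    have hin : (s i, t j) ∈ A (n + 1) := ⟨n, by omega, rfl⟩
    have r1 : res lev (FF a (A n)) = 1 := by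
      ext u v; rw [hres]; simp [hnot, Rl.one_apply]
    have r2 : res lev (FF a (A (n + 1))) =
        edge ⟨s i, by rw [l1]; simp⟩ ⟨t j, by rw [l2]; simp⟩ := by
      ext u v; rw [hres]; simp [hin, edge, Subtype.ext_iff]
    have := ih {u // lev u = 1} hcard' (subT lev T) (hT.sub lev)
      ((c n).1, 1) ⟨c n, (hcQ n).1, hcF n ▸ hTri n, by rw [hcF, r1]⟩
      ((c (n + 1)).1, res lev (FF a (A (n + 1))))
      ⟨c (n + 1), (hcQ _).1, hcF (n + 1) ▸ hTri _, by rw [hcF]⟩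
      (Prod.ext (fst (hc1 n)) (mul_one _)) (Prod.ext (fst (hc2 n)) (one_mul _))
      (Prod.ext (fst (hc3 n)) (mul_one _)) rfl _ _ (fun hc => hst i j (congrArg Subtype.val hc)) r2
    rw [pow_succ]
    simp only at this
    omega

end Crest.Agent.TW
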