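import Crest.Agent.TwoWay.Beh

/-!
Strands of idempotent behaviours and the counting lemmas.
-/

set_option autoImplicit false
set_option linter.unusedVariables false

open Computability

namespace Crest.Agent.TW

instance {P : Type*} : SDiff (Rl P) := ⟨fun r s p q => r p q ∧ ¬ s p q⟩

namespace Beh

variable {P : Type*}

/-- crossing one copy of `y` in a context of copies of `e` -/
def tt (e y : Beh (Rl P)) : Rl P := e.ell * (y.a * e.ell)

/-- the strongly connected class of a point -/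
def cls (e : Beh (Rl P)) (r : P) : Set P := {q | tt e e r q ∧ tt e e q r}

/-- number of right-moving strands of `e` not fixed by `y` -/
noncomputable def dR (e y : Beh (Rl P)) : ℕ := (cls e '' {r | tt e e r r ∧ ¬ tt e y r r}).ncard

/-- number of strands of `e` not fixed by `y` -/
noncomputable def del (e y : Beh (Rl P)) : ℕ := dR e y + dR e.mir y.mir

theorem del_mir (e y : Beh (Rl P)) : del e.mir y.mir = del e y := by
  simp [del, add_comm]

theorem dR_le [Finite P] (e y : Beh (Rl P)) : dR e y ≤ Nat.card P :=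
  (Set.ncard_image_le (Set.toFinite _)).trans (Set.ncard_le_card _)

theorem del_le [Finite P] (e y : Beh (Rl P)) : del e y ≤ 2 * Nat.card P := by
  have := dR_le e y
  have := dR_le e.mir y.mir
  unfold del; omega

theorem tt_mul_le {p q q' : Beh (Rl P)} (h1 : p * q' = q') (h2 : q * p = q) :
    tt p q * tt p q' ≤ tt p (q * q') := by
  have hb := b_le_mul p q'
  have hd := d_le_mul q p
  rw [h1] at hb
  rw [h2] at hd
  simp only [tt, mul_assoc, ell_mul_ell', mul_a]
  unfold ell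
  gcongr

theorem tt_tt_le {p q : Beh (Rl P)} (h1 : p * q = q) : tt p p * tt p q ≤ tt p q := by
  simp only [tt, mul_assoc, ell_mul_ell']
  have := a_ell_a h1
  calc _ = p.ell * ((p.a * (p.ell * q.a)) * p.ell) := by simp only [mul_assoc]
    _ ≤ _ := by gcongr

theorem tt_tt_le' {p q : Beh (Rl P)} (h2 : q * p = q) : tt p q * tt p p ≤ tt p q := by
  simp only [tt, mul_assoc, ell_mul_ell']
  have := a_ell_a' h2
  calc _ = p.ell * ((q.a * (p.ell * p.a)) * p.ell) := by simp only [mul_assoc]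
    _ ≤ _ := by gcongr

theorem tt_le_tt {p q : Beh (Rl P)} (h1 : p * q = q) (h2 : q * p = q) (y : Beh (Rl P)) :
    tt p y ≤ tt q y := by
  have := ell_mono h1 h2
  unfold tt; gcongr

theorem small_big {p q : Beh (Rl P)} (h1 : p * q = q) (h2 : q * p = q) :
    tt p p * tt q q ≤ tt q q := by
  have h3 := ell_mono h1 h2
  have h4 := a_big_ell_a h1 h2
  calc tt p p * tt q q ≤ q.ell * (p.a * q.ell) * tt q q := by unfold tt; gcongr
    _ = q.ell * ((p.a * (q.ell * q.a)) * q.ell) := by simp only [tt, mul_assoc, ell_mul_ell']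
    _ ≤ q.ell * ((q.ell * q.a) * q.ell) := by gcongr
    _ = _ := by simp only [tt, mul_assoc, ell_mul_ell']

theorem big_small {p q : Beh (Rl P)} (hq : q * q = q) (h1 : p * q = q) (h2 : q * p = q) :
    tt q q * tt p p ≤ tt q q := by
  have h3 := ell_mono h1 h2
  have h4 := a_big_ell_a' hq h1 h2
  calc tt q q * tt p p ≤ tt q q * (q.ell * (p.a * q.ell)) := by unfold tt; gcongr
    _ = q.ell * ((q.a * (q.ell * p.a)) * q.ell) := by simp only [tt, mul_assoc, ell_mul_ell']
    _ ≤ q.ell * ((q.a * q.ell) * q.ell) := by gcongr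
    _ = _ := by simp only [tt, mul_assoc, ell_mul_ell]

theorem tt_trans {e : Beh (Rl P)} (he : e * e = e) {p q r : P} (h1 : tt e e p q)
    (h2 : tt e e q r) : tt e e p r := tt_tt_le he _ _ ⟨q, h1, h2⟩

theorem cls_eq {e : Beh (Rl P)} (he : e * e = e) {p q : P} (h1 : tt e e p q) (h2 : tt e e q p) :
    cls e p = cls e q := by
  ext r
  exact ⟨fun h => ⟨tt_trans he h2 h.1, tt_trans he h.2 h1⟩,
    fun h => ⟨tt_trans he h1 h.1, tt_trans he h.2 h2⟩⟩

theorem rel_of_cls_eq {e : Beh (Rl P)} {p q : P} (hq : tt e e q q) (h : cls e p = cls e q) :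
    tt e e p q ∧ tt e e q p := by
  have : q ∈ cls e q := ⟨hq, hq⟩
  rw [← h] at this
  exact this

theorem exists_rec [Finite P] {t : Rl P} (ht : t * t = t) {u v : P} (h : t u v) :
    ∃ r, t u r ∧ t r r ∧ t r v := by
  by_contra hcon
  push Not at hcon
  let W := {w // t u w ∧ t w v}
  have htr : ∀ a b c, t a b → t b c → t a c := fun a b c h1 h2 => by
    rw [← ht]; exact ⟨b, h1, h2⟩
  have hde : ∀ a c, t a c → ∃ b, t a b ∧ t b c := fun a c h => by
    rw [← ht] at h; exact h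
  let R : W → W → Prop := fun a b => t a.1 b.1
  have : IsTrans W R := ⟨fun a b c => htr _ _ _⟩
  have : Std.Irrefl R := ⟨fun a h => hcon a.1 a.2.1 h a.2.2⟩
  have wf : WellFounded R := Finite.wellFounded_of_trans_of_irrefl R
  obtain ⟨w, hw1, hw2⟩ := hde _ _ h
  obtain ⟨m, -, hm⟩ := wf.has_min Set.univ ⟨⟨w, hw1, hw2⟩, trivial⟩
  obtain ⟨b, hb1, hb2⟩ := hde _ _ m.2.1
  exact hm ⟨b, hb1, htr _ _ _ hb2 m.2.2⟩ trivial hb2

theorem a_idem {e : Beh (Rl P)} (he : e * e = e) : e.a * (e.ell * e.a) = e.a := by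
  conv_rhs => rw [← he]
  rfl

theorem a_idem' {e : Beh (Rl P)} (he : e * e = e) (r : Rl P) :
    e.a * (e.ell * (e.a * r)) = e.a * r := by
  conv_rhs => rw [← a_idem he]
  simp only [mul_assoc]

theorem witness [Finite P] {e : Beh (Rl P)} (he : e * e = e) {u v : P} (h : e.a u v) :
    ∃ r, tt e e r r ∧ (e.a * e.ell) u r ∧ (e.ell * e.a) r v := by
  have h1 : e.a = e.a * (tt e e * e.a) := by
    simp only [tt, mul_assoc, a_idem he]
  have h2 : tt e e * tt e e = tt e e := by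
    simp only [tt, mul_assoc, ell_mul_ell', a_idem' he]
  rw [h1] at h
  obtain ⟨u', hu, v', huv, hv⟩ := h
  obtain ⟨r, hr1, hr2, hr3⟩ := exists_rec h2 huv
  refine ⟨r, hr2, ?_, ?_⟩
  · have : e.a * tt e e = e.a * e.ell := by simp only [tt, a_idem' he]
    rw [← this]; exact ⟨u', hu, hr1⟩
  · have : tt e e * e.a = e.ell * e.a := by simp only [tt, mul_assoc, a_idem he]
    rw [← this]; exact ⟨v', hr3, hv⟩

theorem safe {e x : Beh (Rl P)} (h1 : e * x = x) (h2 : x * e = x) :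
    e.a * e.ell * (tt e x * (e.ell * e.a)) ≤ x.a := by
  have h3 := a_ell_a h1
  have h4 := a_ell_a' h2
  calc _ = (e.a * (e.ell * x.a)) * (e.ell * e.a) := by simp only [tt, mul_assoc, ell_mul_ell']
    _ ≤ x.a * (e.ell * e.a) := by gcongr
    _ ≤ _ := h4

theorem a_le_of_dR [Finite P] {e x : Beh (Rl P)} (he : e * e = e) (h1 : e * x = x)
    (h2 : x * e = x) (h : dR e x = 0) : e.a ≤ x.a := by
  intro u v huv
  obtain ⟨r, hr, hu, hv⟩ := witness he huv
  rw [dR, Set.ncard_eq_zero (Set.toFinite _), Set.image_eq_empty] at h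
  have : tt e x r r := by
    by_contra hc
    exact Set.notMem_empty r (h ▸ ⟨hr, hc⟩)
  exact safe h1 h2 _ _ ⟨r, hu, r, this, hv⟩

theorem le_of_del [Finite P] {e x : Beh (Rl P)} (he : e * e = e) (h1 : e * x = x)
    (h2 : x * e = x) (h : del e x = 0) : e ≤ x := by
  unfold del at h
  refine ⟨a_le_of_dR he h1 h2 (by omega), h1 ▸ b_le_mul e x, ?_, h2 ▸ d_le_mul x e⟩
  exact a_le_of_dR (e := e.mir) (x := x.mir) (by rw [← mir_mul, he]) (by rw [← mir_mul, h2])
    (by rw [← mir_mul, h1]) (by omega)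

theorem ncard_le_of_rel {X Y : Type*} [Finite Y] (A : Set X) (B : Set Y) (W : X → Y → Prop)
    (h1 : ∀ x ∈ A, ∃ y ∈ B, W x y) (h2 : ∀ x ∈ A, ∀ x' ∈ A, ∀ y, W x y → W x' y → x = x') :
    A.ncard ≤ B.ncard := by
  rcases isEmpty_or_nonempty Y with hY | hY
  · have : A = ∅ := Set.eq_empty_of_forall_notMem fun x hx => by
      obtain ⟨y, -⟩ := h1 x hx
      exact hY.elim y
    simp [this]
  choose! f hf1 hf2 using h1
  exact Set.ncard_le_ncard_of_injOn f hf1
    (fun x hx x' hx' h => h2 x hx x' hx' _ (hf2 x hx) (h ▸ hf2 x' hx')) (Set.toFinite _)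

theorem one_type [Finite P] {f e x : Beh (Rl P)} (hf : f * f = f) (he : e * e = e)
    (h1 : e * x = x) (h2 : x * e = x) (Pre Suf : Rl P) (h : Pre * (e.a * Suf) ≤ tt f f) :
    (cls f '' {p | (Pre * ((e.a \ x.a) * Suf)) p p}).ncard ≤ dR e x := by
  apply ncard_le_of_rel _ _ (fun D C => ∃ p u v r, D = cls f p ∧ C = cls e r ∧ tt e e r r ∧
    Pre p u ∧ (e.a * e.ell) u r ∧ (e.ell * e.a) r v ∧ Suf v p)
  · rintro _ ⟨p, ⟨u, hu, v, huv, hv⟩, rfl⟩
    obtain ⟨r, hr, hur, hrv⟩ := witness he huv.1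
    refine ⟨cls e r, ⟨r, ⟨hr, fun hc => huv.2 ?_⟩, rfl⟩, p, u, v, r, rfl, rfl, hr, hu, hur, hrv, hv⟩
    exact safe h1 h2 _ _ ⟨r, hur, r, hc, hrv⟩
  · rintro _ - _ - _ ⟨p, u, v, r, rfl, rfl, hr, hu, hur, hrv, hv⟩
      ⟨p', u', v', r', rfl, hc, hr', hu', hur', hrv', hv'⟩
    obtain ⟨h3, h4⟩ := rel_of_cls_eq hr' hc
    exact cls_eq hf (h _ _ ⟨u, hu, v', safe he he _ _ ⟨r, hur, r', h3, hrv'⟩, hv'⟩)
      (h _ _ ⟨u', hu', v, safe he he _ _ ⟨r', hur', r, h4, hrv⟩, hv⟩)

/-- the common part of `e` and `x` -/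
def cap (e x : Beh (Rl P)) : Beh (Rl P) := ⟨e.a ⊓ x.a, e.b, e.c ⊓ x.c, e.d⟩

theorem cap_le_left (e x : Beh (Rl P)) : cap e x ≤ e := ⟨inf_le_left, le_rfl, inf_le_left, le_rfl⟩

theorem cap_le_right {e x : Beh (Rl P)} (h1 : e * x = x) (h2 : x * e = x) : cap e x ≤ x :=
  ⟨inf_le_right, h1 ▸ b_le_mul e x, inf_le_right, h2 ▸ d_le_mul x e⟩

theorem bad_cut [Finite P] {f e x α β : Beh (Rl P)} (hf : f * f = f) (he : e * e = e)
    (h1 : e * x = x) (h2 : x * e = x) (hfac : α * e * β = f) :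
    ∃ Bad : Set P, (cls f '' Bad).ncard ≤ del e x ∧ ∀ p, p ∉ Bad → ∀ α' ≤ α,
      tt f (α' * e * β) p p → tt f (α' * cap e x * β) p p := by
  refine ⟨{p | (f.ell * PA α e β * ((e.a \ x.a) * (SA α e β * f.ell))) p p} ∪
    {p | (f.ell * PC α e β * ((e.c \ x.c) * (SC α e β * f.ell))) p p}, ?_, ?_⟩
  · rw [Set.image_union]
    refine (Set.ncard_union_le _ _).trans (add_le_add ?_ ?_)
    · apply one_type hf he h1 h2
      have := PA_SA α e β
      rw [hfac] at this
      calc _ = f.ell * ((PA α e β * (e.a * SA α e β)) * f.ell) := by simp only [mul_assoc]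
        _ ≤ _ := by unfold tt; gcongr
    · apply one_type (e := e.mir) (x := x.mir) hf (by rw [← mir_mul, he])
        (by rw [← mir_mul, h2]) (by rw [← mir_mul, h1])
      have := PC_SC α e β
      rw [hfac] at this
      calc _ = f.ell * ((PC α e β * (e.c * SC α e β)) * f.ell) := by simp only [mul_assoc, mir]
        _ ≤ _ := by unfold tt; gcongr
  · intro p hp α' hα hfix
    have hs := surgery α' e β (cap e x) (e.a \ x.a) (e.c \ x.c) rfl rfl inf_le_left inf_le_left
      (fun u v h => by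
        by_cases h' : x.a u v
        · exact Or.inl ⟨h, h'⟩
        · exact Or.inr ⟨h, h'⟩)
      (fun u v h => by
        by_cases h' : x.c u v
        · exact Or.inl ⟨h, h'⟩
        · exact Or.inr ⟨h, h'⟩)
    have k1 := PA_mono hα e β
    have k2 := SA_mono hα e β
    have k3 := PC_mono hα e β
    have k4 := SC_mono hα e β
    have : tt f (α' * e * β) ≤ tt f (α' * cap e x * β) +
        f.ell * PA α e β * ((e.a \ x.a) * (SA α e β * f.ell)) +
        f.ell * PC α e β * ((e.c \ x.c) * (SC α e β * f.ell)) := by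
      calc _ ≤ f.ell * (((α' * cap e x * β).a + PA α e β * ((e.a \ x.a) * SA α e β) +
            PC α e β * ((e.c \ x.c) * SC α e β)) * f.ell) := by
            unfold tt; gcongr
            refine hs.trans ?_
            gcongr
        _ = _ := by simp only [tt, mul_add, add_mul, mul_assoc]
    rcases this p p hfix with (h | h) | h
    · exact h
    · exact absurd (Or.inl h) hp
    · exact absurd (Or.inr h) hp

theorem ncard_image_iUnion_le {I X Y : Type*} [Fintype I] [Finite Y] (f : X → Y) (B : I → Set X)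
    (n : ℕ) (h : ∀ i, (f '' B i).ncard ≤ n) : (f '' ⋃ i, B i).ncard ≤ Fintype.card I * n := by
  rw [Set.image_iUnion]
  refine (Set.ncard_iUnion_le_of_fintype _).trans ?_
  calc _ ≤ ∑ _i : I, n := Finset.sum_le_sum fun i _ => h i
    _ = _ := by simp

theorem two_cut [Finite P] {I J : Type*} [Fintype I] [Fintype J] {κ e x E : Beh (Rl P)}
    (hκ : κ * κ = κ) (he : e * e = e) (h1 : e * x = x) (h2 : x * e = x)
    (hE1 : E * κ = κ) (hE2 : κ * E = κ) (g g' : I → Beh (Rl P)) (h h' : J → Beh (Rl P))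
    (hg : ∀ i, g i * e * g' i = E) (hh : ∀ j, h j * e * h' j = E) :
    ∃ Bad : Set P, (cls κ '' Bad).ncard ≤ (Fintype.card I + Fintype.card J) * del e x ∧
      ∀ p, tt κ κ p p → p ∉ Bad → ∀ i j, tt κ (κ * (g i * x * g' i) * (h j * x * h' j) * κ) p p := by
  have c1 := fun i => bad_cut (α := κ * g i) (β := g' i * κ) hκ he h1 h2 (by
    calc κ * g i * e * (g' i * κ) = κ * (g i * e * g' i) * κ := by simp only [mul_assoc]
      _ = κ := by rw [hg, hE2, hκ])
  have c2 := fun j => bad_cut (α := κ * h j) (β := h' j * κ) hκ he h1 h2 (by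
    calc κ * h j * e * (h' j * κ) = κ * (h j * e * h' j) * κ := by simp only [mul_assoc]
      _ = κ := by rw [hh, hE2, hκ])
  choose B1 hB1 hB1' using c1
  choose B2 hB2 hB2' using c2
  refine ⟨(⋃ i, B1 i) ∪ ⋃ j, B2 j, ?_, fun p hp hb i j => ?_⟩
  · rw [Set.image_union, add_mul]
    exact (Set.ncard_union_le _ _).trans
      (add_le_add (ncard_image_iUnion_le _ _ _ hB1) (ncard_image_iUnion_le _ _ _ hB2))
  · simp only [Set.mem_union, Set.mem_iUnion, not_or, not_exists] at hb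
    have s1 := hB1' i p (hb.1 i) _ (le_rfl' _) (by
      have : κ * g i * e * (g' i * κ) = κ := by
        calc κ * g i * e * (g' i * κ) = κ * (g i * e * g' i) * κ := by simp only [mul_assoc]
          _ = κ := by rw [hg, hE2, hκ]
      rwa [this])
    have e1 : κ * g i * cap e x * (g' i * κ) = κ * g i * cap e x * g' i * h j * e * (h' j * κ) := by
      calc _ = κ * g i * cap e x * (g' i * (h j * e * h' j * κ)) := by rw [hh j, hE1]
        _ = _ := by simp only [mul_assoc]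
    have e2 : κ * g i * cap e x * g' i * h j ≤ κ * h j := by
      have : κ * h j = κ * g i * e * g' i * h j := by
        calc _ = κ * (g i * e * g' i) * h j := by rw [hg i, hE2]
          _ = _ := by simp only [mul_assoc]
      rw [this]
      exact mul_mono (mul_mono (mul_mono (le_rfl' _) (cap_le_left _ _)) (le_rfl' _)) (le_rfl' _)
    rw [e1] at s1
    have s2 := hB2' j p (hb.2 j) _ e2 s1
    have e3 : κ * g i * cap e x * g' i * h j * cap e x * (h' j * κ) ≤
        κ * (g i * x * g' i) * (h j * x * h' j) * κ := by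
      have : κ * (g i * x * g' i) * (h j * x * h' j) * κ =
          κ * g i * x * g' i * h j * x * (h' j * κ) := by simp only [mul_assoc]
      rw [this]
      exact mul_mono (mul_mono (mul_mono (mul_mono (mul_mono (le_rfl' _) (cap_le_right h1 h2))
        (le_rfl' _)) (le_rfl' _)) (cap_le_right h1 h2)) (le_rfl' _)
    have e4 := e3.1
    have : tt κ (κ * g i * cap e x * g' i * h j * cap e x * (h' j * κ)) ≤
        tt κ (κ * (g i * x * g' i) * (h j * x * h' j) * κ) := by unfold tt; gcongr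
    exact this _ _ s2

theorem count_aux {X : Type*} (A B N : Set X) (hA : A.Finite) (hB : B.Finite) (R : X → X → Prop)
    (hN : N ⊆ A) (huniq : ∀ C ∈ A, ∀ D ∈ B, ∀ D' ∈ B, R C D → R C D' → D = D')
    (h : ∀ D ∈ B, (∃ C ∈ A, C ∉ N ∧ R C D) ∨ ∃ C ∈ A, ∃ C' ∈ A, C ≠ C' ∧ R C D ∧ R C' D) :
    N.ncard + 2 * B.ncard ≤ 2 * A.ncard := by
  classical
  lift A to Finset X using hA
  lift B to Finset X using hB
  lift N to Finset X using A.finite_toSet.subset hN
  simp only [Set.ncard_coe_finset, Finset.mem_coe] at *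
  have hN' : N ⊆ A := hN
  let w : X → ℕ := fun C => if C ∈ N then 1 else 2
  have h1 : ∑ C ∈ A, w C + N.card = 2 * A.card := by
    have : ∑ C ∈ A, (if C ∈ N then 1 else 0) = N.card := by
      rw [Finset.sum_ite_mem, Finset.inter_eq_right.mpr hN']; simp
    rw [← this, ← Finset.sum_add_distrib, mul_comm, ← smul_eq_mul, ← Finset.sum_const]
    refine Finset.sum_congr rfl fun C _ => ?_
    simp only [w]; split_ifs <;> rfl
  have h2 : ∑ D ∈ B, ∑ C ∈ A.filter (R · D), w C ≤ ∑ C ∈ A, w C := by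
    rw [← Finset.sum_biUnion]
    · exact Finset.sum_le_sum_of_subset (Finset.biUnion_subset.mpr fun D _ =>
        Finset.filter_subset _ _)
    · intro D hD D' hD' hne
      refine Finset.disjoint_left.mpr fun C hC hC' => hne ?_
      rw [Finset.mem_filter] at hC hC'
      exact huniq C hC.1 D hD D' hD' hC.2 hC'.2
  have h3 : ∑ D ∈ B, 2 ≤ ∑ D ∈ B, ∑ C ∈ A.filter (R · D), w C := by
    refine Finset.sum_le_sum fun D hD => ?_
    rcases h D hD with ⟨C, hC, hCN, hR⟩ | ⟨C, hC, C', hC', hne, hR, hR'⟩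
    · have := Finset.single_le_sum (f := w) (s := A.filter (R · D)) (fun _ _ => Nat.zero_le _)
        (Finset.mem_filter.mpr ⟨hC, hR⟩)
      simpa [w, hCN] using this
    · have : ({C, C'} : Finset X) ⊆ A.filter (R · D) := by
        intro z hz
        rcases Finset.mem_insert.mp hz with rfl | hz
        · exact Finset.mem_filter.mpr ⟨hC, hR⟩
        · rw [Finset.mem_singleton.mp hz]; exact Finset.mem_filter.mpr ⟨hC', hR'⟩
      refine le_trans ?_ (Finset.sum_le_sum_of_subset this)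
      rw [Finset.sum_pair hne]
      simp only [w]; split_ifs <;> omega
  simp only [Finset.sum_const, smul_eq_mul] at h3
  omega

/-- number of strands containing no good point -/
noncomputable def unanch (p : Beh (Rl P)) (G : Set P) : ℕ :=
  (cls p '' {r | tt p p r r ∧ ∀ r' ∈ G, r' ∉ cls p r}).ncard

theorem chain_step [Finite P] {p q : Beh (Rl P)} (hp : p * p = p) (hq : q * q = q)
    (h1 : p * q = q) (h2 : q * p = q) (G : Set P) (hG : ∀ r ∈ G, tt p q r r) :
    dR p q + 2 * unanch q G ≤ 2 * unanch p G := by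
  have hfix : ∀ r r1 r2, tt p p r r1 → tt p q r1 r2 → tt p p r2 r → tt p q r r :=
    fun r r1 r2 a b c => tt_tt_le h1 _ _ ⟨r1, a, tt_tt_le' h2 _ _ ⟨r2, b, c⟩⟩
  have hsub : ∀ r π, tt p p r r → r ∈ cls q π → cls p r ⊆ cls q π := fun r π hr hπ z hz =>
    ⟨big_small hq h1 h2 _ _ ⟨r, hπ.1, hz.1⟩, small_big h1 h2 _ _ ⟨r, hz.2, hπ.2⟩⟩
  apply count_aux _ _ _ (Set.toFinite _) (Set.toFinite _) (· ⊆ ·)
  · rintro _ ⟨r, ⟨hr, hr'⟩, rfl⟩
    exact ⟨r, ⟨hr, fun r' hr1 hr2 => hr' (hfix r r' r' hr2.1 (hG r' hr1) hr2.2)⟩, rfl⟩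
  · rintro _ ⟨r, ⟨hr, -⟩, rfl⟩ _ ⟨π, -, rfl⟩ _ ⟨π', -, rfl⟩ a b
    have a' := a ⟨hr, hr⟩
    have b' := b ⟨hr, hr⟩
    exact cls_eq hq (tt_trans hq a'.1 b'.2) (tt_trans hq b'.1 a'.2)
  · rintro _ ⟨π, ⟨hπ, hπ'⟩, rfl⟩
    obtain ⟨u, hu, v, huv, hv⟩ := id hπ
    have ea : q.a = p.a * ((q.b * p.d)∗ * (q.a * ((p.b * q.d)∗ * p.a))) := by
      have e1 : q.a * ((p.b * q.d)∗ * p.a) = q.a := by rw [← mul_a, h2]
      rw [e1, ← mul_a, h1]
    rw [ea] at huv
    obtain ⟨u1, hu1, u2, hu2, u3, hu3, u4, hu4, hu5⟩ := huv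
    obtain ⟨r1, hr1, hr1a, hr1b⟩ := witness hp hu1
    obtain ⟨r2, hr2, hr2a, hr2b⟩ := witness hp hu5
    have k12 : tt p q r1 r2 := by
      have : p.ell * p.a * ((q.b * p.d)∗ * (q.a * ((p.b * q.d)∗ * (p.a * p.ell)))) = tt p q := by
        unfold tt
        conv_rhs => rw [ea]
        simp only [mul_assoc]
      rw [← this]
      exact ⟨u1, hr1b, u2, hu2, u3, hu3, u4, hu4, hr2a⟩
    have hl := ell_mono h1 h2
    have k1 : tt q q π r1 := by
      have h4 := a_big_ell_a' hq h1 h2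
      have : tt q q * (q.ell * (p.a * p.ell)) ≤ tt q q := by
        calc _ = q.ell * ((q.a * (q.ell * p.a)) * p.ell) := by
              simp only [tt, mul_assoc, ell_mul_ell']
          _ ≤ q.ell * ((q.a * q.ell) * q.ell) := by gcongr
          _ = _ := by simp only [tt, mul_assoc, ell_mul_ell]
      exact this _ _ ⟨π, hπ, u, hu, hr1a⟩
    have k2 : tt q q r2 π := by
      have h4 := a_big_ell_a h1 h2
      have : p.ell * p.a * (q.ell * tt q q) ≤ tt q q := by
        calc _ = p.ell * ((p.a * (q.ell * q.a)) * q.ell) := by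
              simp only [tt, mul_assoc, ell_mul_ell']
          _ ≤ q.ell * ((q.ell * q.a) * q.ell) := by gcongr
          _ = _ := by simp only [tt, mul_assoc, ell_mul_ell']
      exact this _ _ ⟨v, hr2b, π, hv, hπ⟩
    have k12' : tt q q r1 r2 := tt_le_tt h1 h2 q _ _ k12
    have m1 : r1 ∈ cls q π := ⟨k1, tt_trans hq k12' k2⟩
    have m2 : r2 ∈ cls q π := ⟨tt_trans hq k1 k12', k2⟩
    have a1 := hsub r1 π hr1 m1
    have a2 := hsub r2 π hr2 m2
    have b1 : cls p r1 ∈ cls p '' {r | tt p p r r ∧ ∀ r' ∈ G, r' ∉ cls p r} :=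
      ⟨r1, ⟨hr1, fun r' hr' hc => hπ' r' hr' (a1 hc)⟩, rfl⟩
    have b2 : cls p r2 ∈ cls p '' {r | tt p p r r ∧ ∀ r' ∈ G, r' ∉ cls p r} :=
      ⟨r2, ⟨hr2, fun r' hr' hc => hπ' r' hr' (a2 hc)⟩, rfl⟩
    by_cases hc : cls p r1 = cls p r2
    · left
      refine ⟨_, b1, ?_, a1⟩
      rintro ⟨r, ⟨hr, hr'⟩, hrc⟩
      exact hr' (hfix r r1 r2 (rel_of_cls_eq hr1 hrc).1 k12
        (rel_of_cls_eq hr2 (hrc.trans hc)).2)
    · exact Or.inr ⟨_, b1, _, b2, hc, a1, a2⟩

theorem chain_sum [Finite P] {κ : Beh (Rl P)} (g : ℕ → Beh (Rl P)) (h0 : g 0 = κ)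
    (hid : ∀ n, g n * g n = g n) (h1 : ∀ n, g n * g (n + 1) = g (n + 1))
    (h2 : ∀ n, g (n + 1) * g n = g (n + 1)) (h3 : ∀ n, κ * g n = g n) (h4 : ∀ n, g n * κ = g n)
    (Bad : Set P) (hfix : ∀ p, tt κ κ p p → p ∉ Bad → ∀ n, tt κ (g n) p p) (L : ℕ) :
    ∑ n ∈ Finset.range L, dR (g n) (g (n + 1)) ≤ 2 * (cls κ '' Bad).ncard := by
  let G : Set P := {p | tt κ κ p p ∧ p ∉ Bad}
  have hstep : ∀ n, dR (g n) (g (n + 1)) + 2 * unanch (g (n + 1)) G ≤ 2 * unanch (g n) G :=
    fun n => chain_step (hid n) (hid _) (h1 n) (h2 n) G fun r hr =>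
      tt_le_tt (h3 n) (h4 n) _ _ _ (hfix r hr.1 hr.2 _)
  have hsum : ∑ n ∈ Finset.range L, dR (g n) (g (n + 1)) + 2 * unanch (g L) G ≤
      2 * unanch (g 0) G := by
    induction L with
    | zero => simp
    | succ L ih => rw [Finset.sum_range_succ]; have := hstep L; omega
  have : unanch (g 0) G ≤ (cls κ '' Bad).ncard := by
    rw [h0]
    refine Set.ncard_le_ncard (Set.image_mono fun r hr => ?_) (Set.toFinite _)
    by_contra hc
    exact hr.2 r ⟨hr.1, hc⟩ ⟨hr.1, hr.1⟩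
  omega

end Beh

end Crest.Agent.TW
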